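import Vale.Agent.P201.Defs
import Vale.Agent.P194.Stm

namespace Vale.Agent.P201

open Vale.Agent.P194 Finset

theorem sq_fib {α β : Type} [DecidableEq β] (Φ : Finset α) (f : α → β) (t : Finset β) (k X : ℕ)
    (h1 : ∀ x ∈ Φ, f x ∈ t) (h2 : t.card ≤ k)
    (h3 : ∀ y, (Φ.filter (fun x => f x = y)).card ^ 2 ≤ X) : Φ.card ^ 2 ≤ k ^ 2 * X := by
  have h4 : Φ.card ≤ X.sqrt * t.card :=
    card_le_mul_card_image_of_maps_to h1 _ (fun y _ => Nat.le_sqrt'.2 (h3 y))
  have h5 : X.sqrt ^ 2 ≤ X := Nat.sqrt_le' X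
  calc Φ.card ^ 2 ≤ (X.sqrt * k) ^ 2 := by gcongr; exact h4.trans (Nat.mul_le_mul_left _ h2)
    _ = k ^ 2 * X.sqrt ^ 2 := by ring
    _ ≤ _ := by gcongr

theorem col_count {ι S : Type} [DecidableEq ι] [DecidableEq S] [Fintype S] (Sg : Finset (S × S))
    (h1 : Sg.card ≤ 24) (h2 : ∀ s, (Sg.filter (fun p => p.1 = s)).card ≤ 2) (Ex : Finset ι) :
    ∀ (n : ℕ) (A : Finset ι) (Φ : Finset (ι → S)), A.card ≤ n →
      (∀ φ ∈ Φ, ∀ ψ ∈ Φ, ∀ i ∉ A, φ i = ψ i) →
      (∀ f ∈ A, f ∉ Ex → ∃ f', f' ≠ f ∧ ∀ φ ∈ Φ, (φ f', φ f) ∈ Sg) →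
      Φ.card ^ 2 ≤ 24 ^ A.card * (Fintype.card S ^ 2) ^ (A ∩ Ex).card := by
  intro n
  induction n using Nat.strong_induction_on with
  | _ n ih =>
    intro A Φ hn hA hN
    rcases Φ.eq_empty_or_nonempty with rfl | ⟨φ0, h0⟩
    · simp
    rcases A.eq_empty_or_nonempty with rfl | ⟨f, hf⟩
    · have : Φ.card ≤ 1 := card_le_one.2 fun a ha b hb => funext fun i => hA a ha b hb i (by simp)
      simpa using this
    have cS : 1 ≤ Fintype.card S ^ 2 := Nat.one_le_pow _ _ (Fintype.card_pos_iff.2 ⟨φ0 f⟩)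
    have pos := card_pos.2 ⟨f, hf⟩
    have step : ∀ (B : Finset ι) (P : (ι → S) → Prop) [DecidablePred P], B.card < A.card →
        B ⊆ A → (∀ φ ψ, P φ → P ψ → ∀ i ∈ A, i ∉ B → φ i = ψ i) →
        (Φ.filter P).card ^ 2 ≤ 24 ^ B.card * (Fintype.card S ^ 2) ^ (B ∩ Ex).card := by
      intro B P _ b1 b2 b3
      refine ih B.card (by omega) B _ le_rfl (fun φ hφ ψ hψ i hi => ?_) (fun g hg hg' => ?_)
      · rw [mem_filter] at hφ hψ
        by_cases c : i ∈ A
        · exact b3 φ ψ hφ.2 hψ.2 i c hi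
        · exact hA φ hφ.1 ψ hψ.1 i c
      · obtain ⟨f', a, b⟩ := hN g (b2 hg) hg'
        exact ⟨f', a, fun φ hφ => b φ (mem_filter.1 hφ).1⟩
    have one := fun y => step (A.erase f) (fun φ => φ f = y) (card_erase_lt_of_mem hf)
      (erase_subset _ _) (fun φ ψ a b i hi hi' => by
        obtain rfl : i = f := by by_contra c; exact hi' (mem_erase.2 ⟨c, hi⟩)
        rw [a, b])
    have e1 : A.card = (A.erase f).card + 1 := (card_erase_add_one hf).symm
    have m1 : ((A.erase f) ∩ Ex).card ≤ (A ∩ Ex).card :=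
      card_le_card (inter_subset_inter (erase_subset _ _) Subset.rfl)
    by_cases ex : f ∈ Ex
    · have := sq_fib Φ (fun φ => φ f) univ (Fintype.card S) _ (by simp) (by simp) one
      have e2 : (A ∩ Ex).card = ((A.erase f) ∩ Ex).card + 1 := by
        rw [erase_inter, card_erase_add_one (mem_inter.2 ⟨hf, ex⟩)]
      rw [e1, e2]
      refine this.trans ?_
      rw [pow_succ 24, pow_succ (Fintype.card S ^ 2)]
      nlinarith [Nat.zero_le (Fintype.card S ^ 2 * (24 ^ (A.erase f).card *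
        (Fintype.card S ^ 2) ^ ((A.erase f) ∩ Ex).card))]
    obtain ⟨f', ne, hf'⟩ := hN f hf ex
    have p1 := Nat.pow_le_pow_right cS m1
    by_cases c : f' ∈ A
    · have two := fun y => step ((A.erase f).erase f') (fun φ => (φ f', φ f) = y)
        (lt_of_le_of_lt card_erase_le (card_erase_lt_of_mem hf))
        ((erase_subset _ _).trans (erase_subset _ _)) (fun φ ψ a b i hi hi' => by
          have := a.trans b.symm
          simp only [Prod.mk.injEq] at this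
          by_cases c1 : i = f
          · rw [c1, this.2]
          · obtain rfl : i = f' := by
              by_contra c; exact hi' (mem_erase.2 ⟨c, mem_erase.2 ⟨c1, hi⟩⟩)
            exact this.1)
      have := sq_fib Φ (fun φ => (φ f', φ f)) Sg 24 _ hf' h1 two
      have e2 : (A.erase f).card = ((A.erase f).erase f').card + 1 :=
        (card_erase_add_one (mem_erase.2 ⟨ne, c⟩)).symm
      have m2 : (((A.erase f).erase f') ∩ Ex).card ≤ ((A.erase f) ∩ Ex).card :=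
        card_le_card (inter_subset_inter (erase_subset _ _) Subset.rfl)
      have p2 := (Nat.pow_le_pow_right cS m2).trans p1
      rw [e1, e2]
      refine this.trans ?_
      calc _ ≤ 24 ^ 2 * (24 ^ ((A.erase f).erase f').card * (Fintype.card S ^ 2) ^ (A ∩ Ex).card) := by
            gcongr
        _ = _ := by ring
    · have := sq_fib Φ (fun φ => φ f) ((Sg.filter (fun p => p.1 = φ0 f')).image Prod.snd) 2 _
        (fun φ hφ => mem_image.2 ⟨(φ f', φ f), mem_filter.2 ⟨hf' φ hφ, hA φ hφ φ0 h0 f' c⟩, rfl⟩)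
        (card_image_le.trans (h2 _)) one
      rw [e1]
      refine this.trans ?_
      calc _ ≤ 24 * (24 ^ (A.erase f).card * (Fintype.card S ^ 2) ^ (A ∩ Ex).card) := by
            gcongr; norm_num
        _ = _ := by ring

/-- removing repeated vertices from a certificate -/
theorem cert_dedup {T : ℕ} {nx μ rp : ℕ → ℕ} {i0 : ℕ} {F Fr Vt Ir : Finset ℕ} {ρ : ℕ → ℕ}
    (c : Cert T nx μ rp i0 F Fr Vt Ir ρ) : ∃ Vt', Vt' ⊆ Vt ∧ Cert T nx μ rp i0 F Fr Vt' Ir ρ ∧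
      ∀ i ∈ Vt', ∀ i' ∈ Vt', rp i = rp i' → i = i' := by
  classical
  have key : ∀ i ∈ Vt, ∃ i' ∈ Vt.filter (fun i => ∀ i' ∈ Vt, rp i' = rp i → i ≤ i'),
      rp i' = rp i ∧ i' ≤ i := by
    intro i hi
    obtain ⟨j, hj, hm⟩ := exists_min_image (Vt.filter (fun j => rp j = rp i)) id ⟨i, by simp [hi]⟩
    rw [mem_filter] at hj
    exact ⟨j, mem_filter.2 ⟨hj.1, fun i' a b => hm i' (mem_filter.2 ⟨a, b.trans hj.2⟩)⟩, hj.2,
      hm i (by simp [hi])⟩
  have k2 : ∀ r, ((∃ i ∈ Vt, rp i = r) ∨ r = i0) →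
      ((∃ i ∈ Vt.filter (fun i => ∀ i' ∈ Vt, rp i' = rp i → i ≤ i'), rp i = r) ∨ r = i0) := by
    rintro r (⟨i, hi, e⟩ | e)
    · obtain ⟨j, a, b, -⟩ := key i hi
      exact Or.inl ⟨j, a, b.trans e⟩
    · exact Or.inr e
  refine ⟨Vt.filter (fun i => ∀ i' ∈ Vt, rp i' = rp i → i ≤ i'), filter_subset _ _,
    ⟨c.F_lt, c.F_inj, c.par, fun i hi => c.V_le i (mem_filter.1 hi).1,
      fun j hj => ⟨k2 _ (c.ends j hj).1, k2 _ (c.ends j hj).2⟩, fun i hi hi' => ?_⟩,
    fun i hi i' hi' e => ?_⟩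
  · obtain ⟨j, hj, j', hj', ne, inc, u, hu, en, pr⟩ := c.reg i (mem_filter.1 hi).1 hi'
    refine ⟨j, hj, j', hj', ne, inc, u, hu, en, pr.imp id ?_⟩
    rintro ⟨u', a, b, d⟩
    obtain ⟨v, v1, v2, v3⟩ := key u' a
    exact ⟨v, v1, v2.trans b, by omega⟩
  · rw [mem_filter] at hi hi'
    exact le_antisymm (hi.2 i' hi'.1 e.symm) (hi'.2 i hi.1 e)

end Vale.Agent.P201
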