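import Vale.Agent.P194.Cfg

namespace Vale.Agent.P201

open Vale.Agent.P194

section
variable {S X V : Type}

open Classical in
/-- bipartite model: even vertices carry lines, odd vertices carry small blocks -/
structure Bip [Fintype V] (m : Model S X V) (ev : X → Bool) (Sg : Finset (S × S)) (N : ℕ) :
    Prop where
  flip : ∀ s x, ev (m.act s x) = !ev x
  big : Big m (10 * N)
  fewE : ∀ s t x, s ≠ t → ev x = true →
    (Finset.univ.filter (fun u => s ∈ m.L u ∧ t ∈ m.L u ∧ m.τ u = x)).card ≤ 2 * N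
  fewO : ∀ s t x, s ≠ t →
    (Finset.univ.filter (fun u => s ∈ m.L u ∧ t ∈ m.L u ∧ m.τ u = x)).card ≤ 10 * N
  sg : ∀ u s t, ev (m.τ u) = false → s ∈ m.L u → t ∈ m.L u → s ≠ t → (s, t) ∈ Sg
  sg_card : Sg.card ≤ 24
  sg_fib : ∀ s, (Sg.filter (fun p => p.1 = s)).card ≤ 2
  deg : ∀ v, 2 ≤ (m.L v).card
  degE : ∀ v, ev (m.τ v) = true → 5 ≤ (m.L v).card
  card : Fintype.card V ≤ 300 * N

/-- no small reduced diagram with short boundary is drawn in the graph -/
def NoCfg (π : S → V → V) (c0 : V) (g K q : ℕ) : Prop :=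
  ∀ T B R cl tl nx μ, g + 1 ≤ T → T ≤ K * (g + 1) → R ≤ K → Cfg π c0 T B R cl tl nx μ →
    T < q * B

/-- walks from `c` that are trivial in the group are closed -/
def NonCol {G : Type} [Group G] (π : S → V → V) (φ : S → G) (c : V) : Prop :=
  ∀ w, Walk π c w → (w.map φ).prod = 1 → run π c w = c

/-- linear isoperimetric inequality for faces of length at most `L` -/
def LinIso (π : S → V → V) (L q : ℕ) : Prop :=
  ∀ w n, IsArea (fun w n => ∃ t, Ar (CWL π L) w t n) w n → L * n ≤ q * w.length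

end

/-- WP-Des: the design from the plane of order 4 and the group algebra computation. -/
def DesStmt : Prop :=
  ∀ N : ℕ, 1 ≤ N →
    ∃ (V : Type) (_ : Fintype V) (m : Model (Fin 21) (Bool × Bool) V)
      (Sg : Finset (Fin 21 × Fin 21)) (a0 b0 : V),
      (∃ π, Valid m π) ∧ Bip m Prod.snd Sg N ∧
      ∀ π, Valid m π → ∀ (G : Type) [Group G] (φ : Fin 21 → G) (H : Subgroup G),
        (∀ s, φ s * φ s = 1) → (∀ v w, Walk π v w → run π v w = v → (w.map φ).prod = 1) →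
        (∀ s t, φ s * φ t ∈ H) → NonCol π φ a0 → NonCol π φ b0 →
        ∃ α β : MonoidAlgebra (ZMod 2) H, α ≠ 0 ∧ β ≠ 0 ∧ α * β = 0

open Classical in
/-- WP-Diam: logarithmic diameter with probability at least 3/4. -/
def DiamStmt2 : Prop :=
  ∃ C : ℕ, ∀ (S X V : Type) [Fintype S] [Fintype V] (m : Model S X V) (ev : X → Bool)
    (Sg : Finset (S × S)) (g N r : ℕ), Bip m ev Sg N →
    100 * (Fintype.card S + 1) ^ (g + 2) ≤ N → N ≤ 2 ^ r →
    4 * ((GG m g).filter (fun π => ¬ Diam π (C * (2 * r + 1)))).card ≤ (GG m g).card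

open Classical in
/-- WP-FM: first moment. -/
def FMStmt : Prop :=
  ∀ K : ℕ, ∃ g0 : ℕ, ∀ (X V : Type) [Fintype V] (m : Model (Fin 21) X V) (ev : X → Bool)
    (Sg : Finset (Fin 21 × Fin 21)) (g N : ℕ) (c0 : V), g0 ≤ g → Bip m ev Sg N →
    1000 * 22 ^ (g + 2) ≤ N →
    8 * ((GG m g).filter (fun π => ¬ NoCfg π c0 g K 100)).card ≤ (GG m g).card

/-- WP-Lin: local to global, and non-collapse at the root. -/
def LinStmt : Prop :=
  ∀ C q : ℕ, ∃ q' K : ℕ, ∀ (S V : Type) [Nontrivial S] (π : S → V → V) (c0 : V) (g D : ℕ),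
    1 ≤ g → Invo π → Girth π g → Diam π D → 1 ≤ D → D ≤ C * (g + 1) → NoCfg π c0 g K q →
    LinIso π (3 * D) q' ∧ NonCol π (gen π) c0

/-- WP-T: elements of even length have infinite order. -/
def TorsStmt : Prop :=
  ∀ C q q' : ℕ, ∃ K : ℕ, ∀ (S V : Type) [Nontrivial S] (π : S → V → V) (c0 : V) (g D : ℕ)
    (ε : Grp π →* Multiplicative (ZMod 2)),
    1 ≤ g → Invo π → Girth π g → Diam π D → 1 ≤ D → D ≤ C * (g + 1) → NoCfg π c0 g K q →
    LinIso π (3 * D) q' → (∀ s, ε (gen π s) ≠ 1) →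
    ∀ x : Grp π, ε x = 1 → IsOfFinOrder x → x = 1

end Vale.Agent.P201
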