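import Vale.Agent.P201.Defs
import Vale.Agent.P194.Design0

/-! The design from the projective plane of order four. -/

namespace Vale.Agent.P201

open Finset Vale.Agent.P194 Vale.Agent.P194.F

namespace Des

def inb (k : Fin 64) (s : Fin 21) : Bool :=
  if k.val < 42 then (s.val + 42 - k.val) % 21 ∈ [0, 1, 4, 14, 16]
  else if k.val < 60 then (s.val + 1) / 2 == 2 + (k.val - 42) % 9
  else s.val < 3 && s.val + 60 != k.val

def cls (k : Fin 64) : Bool × Bool :=
  if k.val < 42 then (k.val < 21, true) else if k.val < 60 then (k.val < 51, false)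
  else (k.val < 63, false)

def mult (k : Fin 64) : ℕ :=
  if k.val < 42 then 2 else if k.val < 60 then 10 else if k.val < 63 then 5 else 10

def blk (k : Fin 64) : Finset (Fin 21) := univ.filter fun s => inb k s

abbrev VV (N : ℕ) : Type := Σ k : Fin 64, Fin (mult k * N)

def md (N : ℕ) : Model (Fin 21) (Bool × Bool) (VV N) where
  L v := blk v.1
  τ v := cls v.1
  act _ x := (x.1, !x.2)

def Sg : Finset (Fin 21 × Fin 21) := univ.filter fun p => p.1 ≠ p.2 ∧
  ((p.1.val < 3 ∧ p.2.val < 3) ∨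
    (3 ≤ p.1.val ∧ 3 ≤ p.2.val ∧ (p.1.val + 1) / 2 = (p.2.val + 1) / 2))

theorem one : ∀ s x, (∑ k, if inb k s = true ∧ cls k = x then mult k else 0) = 10 := by
  decide +kernel

theorem two : ∀ s t x, s ≠ t → (∑ k, if (inb k s = true ∧ inb k t = true) ∧ cls k = x then
    mult k else 0) ≤ if x.2 = true then 2 else 10 := by
  decide +kernel

theorem three : ∀ k s t, (cls k).2 = false → inb k s = true → inb k t = true → s ≠ t →
    (s, t) ∈ Sg := by
  simp only [Sg, mem_filter, mem_univ, true_and]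
  decide +kernel

theorem four : Sg.card ≤ 24 ∧ (∀ s, (Sg.filter (fun p => p.1 = s)).card ≤ 2) ∧
    (∀ k, 2 ≤ (blk k).card ∧ ((cls k).2 = true → 5 ≤ (blk k).card)) ∧ ∑ k, mult k = 289 := by
  decide +kernel

theorem five : ∀ k k', (cls k).1 = true → (cls k').1 = false → (cls k).2 = (cls k').2 →
    (blk k ∩ blk k').card % 2 = if (cls k).2 = true then 1 else 0 := by
  decide +kernel

theorem cnt {N : ℕ} (T : Finset (VV N)) (P : Fin 64 → Prop) [DecidablePred P]
    (hT : ∀ v, v ∈ T ↔ P v.1) : T.card = (∑ k, if P k then mult k else 0) * N := by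
  rw [show T = univ.filter fun v => P v.1 by ext; simp [hT], card_filter, Fintype.sum_sigma,
    sum_mul]
  refine sum_congr rfl fun k _ => ?_
  split_ifs with h <;> simp [h]

variable {S X V G : Type}

open MonoidAlgebra in
theorem kill {K : Type} [Field K] [Fintype S] [DecidableEq S] [Group G] {m : Model S X V}
    {π : S → V → V} (h : Valid m π) {φ : S → G} {p q : V → G}
    (hp : ∀ s v, π s v ≠ v → p (π s v) = p v * φ s)
    (hq : ∀ s v, π s v ≠ v → q (π s v) = q v * φ s) (wt : X → X → K) (A B : Finset V)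
    (hA : ∀ s, ∀ v ∈ A, π s v ∈ A) (hB : ∀ s, ∀ v ∈ B, π s v ∈ B)
    (hs : ∀ s x y, wt x y + wt (m.act s x) (m.act s y) = 0) :
    ∑ a ∈ A, ∑ b ∈ B, single (p a * (q b)⁻¹)
      (wt (m.τ a) (m.τ b) * ((m.L a ∩ m.L b).card : K)) = 0 := by
  have e : ∀ a b, single (p a * (q b)⁻¹) (wt (m.τ a) (m.τ b) * ((m.L a ∩ m.L b).card : K)) =
      ∑ s, if s ∈ m.L a ∩ m.L b then single (p a * (q b)⁻¹) (wt (m.τ a) (m.τ b)) else 0 :=
    fun a b => by
      rw [← sum_filter, filter_mem_eq_inter, univ_inter, sum_const, mul_comm, ← nsmul_eq_mul,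
        smul_single]
  simp only [e]
  rw [← sum_product', sum_comm]
  refine sum_eq_zero fun s _ => sum_involution (fun p _ => (π s p.1, π s p.2)) (fun r hr => ?_)
    (fun p _ k k' => ?_) (fun p hq => mem_product.2 ⟨hA _ _ (mem_product.1 hq).1,
      hB _ _ (mem_product.1 hq).2⟩) fun p _ => by simp [(h s _).1]
  · simp only [mem_inter, mem_L h]
    split_ifs with k
    · obtain ⟨a1, a2⟩ := (h s r.1).2.2 k.1
      obtain ⟨b1, b2⟩ := (h s r.2).2.2 k.2
      rw [hp _ _ a1, hq _ _ b1, a2, b2, mul_inv_rev, mul_assoc, mul_inv_cancel_left, ← single_add,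
        hs, single_zero]
    · simp
  · refine k (if_neg fun k2 => ?_)
    exact ((h s p.1).2.2 (mem_inter.1 k2).1).1 (congrArg Prod.fst k')

theorem par [Group G] {m : Model S (Bool × Bool) V} (hm : ∀ s x, m.act s x = (x.1, !x.2))
    {π : S → V → V} (h : Valid m π) {φ : S → G}
    {H : Subgroup G} (hH : ∀ s t, φ s * φ t ∈ H) (w : List S) : ∀ v, Walk π v w →
    (m.τ (run π v w)).1 = (m.τ v).1 ∧ ((m.τ (run π v w)).2 = (m.τ v).2 →
      (w.map φ).prod ∈ H) ∧ ((m.τ (run π v w)).2 ≠ (m.τ v).2 →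
      ∀ s, φ s * (w.map φ).prod ∈ H) := by
  induction w with
  | nil => exact fun v _ => ⟨rfl, fun _ => one_mem _, fun k => absurd rfl k⟩
  | cons s w ih =>
    intro v k
    have hs : s ∈ m.L v := by
      by_contra c
      exact k.1 ((h s v).2.1 c)
    have e : m.τ (π s v) = ((m.τ v).1, !(m.τ v).2) := ((h s v).2.2 hs).2.trans (hm _ _)
    obtain ⟨a1, a2, a3⟩ := ih _ k.2
    rw [e] at a1 a2 a3
    rw [C.run_cons, List.map_cons, List.prod_cons]
    refine ⟨a1, fun c => a3 (by simp [c]) s, fun c t => ?_⟩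
    rw [← mul_assoc]
    exact mul_mem (hH t s) (a2 (Bool.eq_not_iff.2 c))

open MonoidAlgebra in
theorem comp [Fintype V] [Group G] {m : Model S (Bool × Bool) V}
    (hm : ∀ s x, m.act s x = (x.1, !x.2)) {π : S → V → V} (h : Valid m π) {φ : S → G}
    {H : Subgroup G} (h2 : ∀ s, φ s * φ s = 1)
    (hc : ∀ v w, Walk π v w → run π v w = v → (w.map φ).prod = 1) (hH : ∀ s t, φ s * φ t ∈ H)
    {c : V} (c1 : (m.τ c).2 = true) (c2 : NonCol π φ c) :
    ∃ (A : Finset (V)) (p : V → G) (p' : V → H), (∀ s, ∀ v ∈ A, π s v ∈ A) ∧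
      (∀ s v, π s v ≠ v → p (π s v) = p v * φ s) ∧
      (∀ v ∈ A, (m.τ v).1 = (m.τ c).1 ∧ ((m.τ v).2 = true → p' v = p v)) ∧
      ∀ f : H → H, (∀ x, f x = 1 ↔ x = 1) →
        ∑ a ∈ A.filter (fun a => (m.τ a).2 = true), single (f (p' a)) (1 : ZMod 2) ≠ 0 := by
  classical
  obtain ⟨pot, hp⟩ := exists_pot (fun s v => (h s v).1) h2 hc
  let p : V → G := fun v => (pot c)⁻¹ * pot v
  let p' : V → H := fun v => if k : p v ∈ H then ⟨p v, k⟩ else 1
  let A := univ.filter fun v => ∃ u, Walk π c u ∧ run π c u = v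
  have e : ∀ u, Walk π c u → p (run π c u) = (u.map φ).prod := fun u k => by
    simp only [p, pot_run hp u _ k, inv_mul_cancel_left]
  have e' : ∀ v ∈ A, (m.τ v).1 = (m.τ c).1 ∧ ((m.τ v).2 = true → p' v = p v) :=
    fun v hv => by
      obtain ⟨-, u, u1, rfl⟩ := mem_filter.1 hv
      obtain ⟨a1, a2, -⟩ := par hm h hH u c u1
      refine ⟨a1, fun k => ?_⟩
      simp only [p']
      rw [dif_pos (e u u1 ▸ a2 (k.trans c1.symm))]
  refine ⟨A, p, p', fun s v hv => ?_, fun s v k => by simp only [p, hp s v k, mul_assoc], e',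
    fun f hf k => ?_⟩
  · obtain ⟨-, u, u1, rfl⟩ := mem_filter.1 hv
    by_cases k : π s (run π c u) = run π c u
    · rwa [k]
    · exact mem_filter.2 ⟨mem_univ _, u ++ [s], (C.walk_append _ _ _ _).2 ⟨u1, k, trivial⟩,
        C.run_append _ _ _ _⟩
  · have hcA : c ∈ A := mem_filter.2 ⟨mem_univ _, [], trivial, rfl⟩
    have e3 := congrArg (fun x : MonoidAlgebra (ZMod 2) H => x.coeff 1) k
    simp only [coeff_sum, coeff_single, Finsupp.finsetSum_apply, coeff_zero,
      Finsupp.zero_apply] at e3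
    rw [sum_eq_single_of_mem c (mem_filter.2 ⟨hcA, c1⟩) fun b hb b1 => ?_,
      (hf _).2 (Subtype.ext (((e' c hcA).2 c1).trans (inv_mul_cancel _))),
      Finsupp.single_eq_same] at e3
    · exact one_ne_zero e3
    · obtain ⟨b2, b3⟩ := mem_filter.1 hb
      have b4 := (e' b b2).2 b3
      obtain ⟨-, u, u1, rfl⟩ := mem_filter.1 b2
      refine Finsupp.single_eq_of_ne fun k => b1 (c2 u u1 ?_)
      rw [← e u u1, ← b4, (hf _).1 k.symm]
      rfl

end Des

open Des MonoidAlgebra in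
theorem des : DesStmt := by
  classical
  intro N hN
  have c1 : ∀ (T : Finset (VV N)) s x, (∀ v, v ∈ T ↔ s ∈ (md N).L v ∧ (md N).τ v = x) →
      T.card = 10 * N := fun T s x hT => by
    rw [cnt T (fun k => inb k s = true ∧ cls k = x) (by simpa [md, blk] using hT), one]
  have c2 : ∀ (T : Finset (VV N)) s t x, s ≠ t →
      (∀ v, v ∈ T ↔ s ∈ (md N).L v ∧ t ∈ (md N).L v ∧ (md N).τ v = x) →
      T.card ≤ (if x.2 = true then 2 else 10) * N := fun T s t x h hT => by
    rw [cnt T (fun k => (inb k s = true ∧ inb k t = true) ∧ cls k = x)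
      (by simpa [md, blk, and_assoc] using hT)]
    exact Nat.mul_le_mul_right _ (two s t x h)
  let a0 : VV N := ⟨0, ⟨0, show 0 < 2 * N by omega⟩⟩
  refine ⟨VV N, inferInstance, md N, Sg, a0, ⟨21, ⟨0, show 0 < 2 * N by omega⟩⟩, ?_,
    ⟨fun _ _ => rfl, fun s v _ => (c1 _ s ((md N).τ v) (by simp)).ge,
      fun s t x h hx => (c2 _ s t x h (by simp)).trans (by rw [if_pos hx]),
      fun s t x h => (c2 _ s t x h (by simp)).trans (by split_ifs <;> omega),
      fun u s t k a b => three u.1 s t k (mem_filter.1 a).2 (mem_filter.1 b).2, four.1,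
      fun s => by convert four.2.1 s, fun v => (four.2.2.1 v.1).1, fun v => (four.2.2.1 v.1).2,
      ?_⟩, fun π h G _ φ H h2 hc hH n1 n2 => ?_⟩
  · have := fun s => exists_invol a0
      (fun x => univ.filter fun v => s ∈ (md N).L v ∧ (md N).τ v = x) (fun v => s ∈ (md N).L v)
      (md N).τ (fun x v => by simp) ((md N).act s) (fun x => by simp [md])
      (fun x => by rw [c1 _ s ((md N).act s x) (by simp), c1 _ s x (by simp)])
      fun x _ => by rw [c1 _ s x (by simp)]; exact ⟨5 * N, by ring⟩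
    choose π hπ using this
    exact ⟨π, hπ⟩
  · rw [Fintype.card_sigma]
    simp only [Fintype.card_fin, ← sum_mul, four.2.2.2]
    omega
  haveI : Fact (Nat.Prime 2) := ⟨Nat.prime_two⟩
  obtain ⟨A, p, p', a1, a2, a3, a4⟩ := comp (fun _ _ => rfl) h h2 hc hH rfl n1
  obtain ⟨B, q, q', b1, b2, b3, b4⟩ := comp (fun _ _ => rfl) h h2 hc hH rfl n2
  refine ⟨_, _, a4 id fun _ => Iff.rfl, b4 (·⁻¹) fun _ => inv_eq_one, ?_⟩
  refine mapDomain_injective (f := H.subtype) H.subtype_injective ?_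
  change mapDomainRingHom (ZMod 2) H.subtype _ = mapDomainRingHom (ZMod 2) H.subtype 0
  rw [map_zero, ← kill (K := ZMod 2) h a2 b2 (fun x y => if x.2 = y.2 then 1 else 0) A B a1 b1
    (fun s x y => by simp only [md, Bool.not_inj_iff]; split_ifs <;> rfl), sum_mul_sum,
    map_sum, sum_filter]
  refine sum_congr rfl fun a ha => ?_
  rw [map_sum, sum_filter, ite_sum_zero]
  refine sum_congr rfl fun b hb => ?_
  have f := five a.1 b.1 (a3 a ha).1 (b3 b hb).1
  change (if (cls a.1).2 = true then if (cls b.1).2 = true then _ else 0 else 0) =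
    single _ ((if (cls a.1).2 = (cls b.1).2 then 1 else 0) * ((blk a.1 ∩ blk b.1).card : ZMod 2))
  rw [← ZMod.natCast_mod]
  by_cases k : (cls a.1).2 = (cls b.1).2
  · rw [f k, if_pos k, ← k]
    split_ifs with k1
    · simp [single_mul_single, (a3 a ha).2 k1, (b3 b hb).2 (k.symm.trans k1)]
    · simp
  · rw [if_neg k, zero_mul, single_zero]
    split_ifs with k1 k2
    · exact absurd (k1.trans k2.symm) k
    all_goals rfl

end Vale.Agent.P201
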