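import Vale.Agent.P201.Defs
import Vale.Agent.P194.Diam

/-! Random bipartite edge-coloured graphs of large girth have logarithmic diameter. -/

namespace Vale.Agent.P201

open Finset Vale.Agent.P194 Vale.Agent.P194.D

namespace Di

variable {S X V : Type}

theorem diam_of_big [Fintype S] [Fintype V] {π : S → V → V} {N r c₀ J : ℕ}
    (hi : ∀ s v, π s (π s v) = v) (h : ∀ v, N < c₀ * (C.ball π v r).card)
    (hV : c₀ * Fintype.card V < J * (N + 1)) : Diam π (J * (2 * r + 1)) := by
  classical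
  intro v w₀ hw₀
  have ex : ∃ n, ∃ w, Walk π v w ∧ run π v w = run π v w₀ ∧ w.length = n := ⟨_, w₀, hw₀, rfl, rfl⟩
  obtain ⟨w, w1, w2, w3⟩ := Nat.find_spec ex
  refine ⟨w, w1, w2, ?_⟩
  by_contra c
  have mn : ∀ w', Walk π v w' → run π v w' = run π v w → w.length ≤ w'.length := fun w' k1 k2 =>
    w3 ▸ Nat.find_min' ex ⟨w', k1, k2.trans w2, rfl⟩
  let x : ℕ → V := fun i => run π v (w.take (i * (2 * r + 1)))
  have dj : ∀ i j, i < j → j < J → Disjoint (C.ball π (x i) r) (C.ball π (x j) r) := by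
    intro i j hij hj
    refine disjoint_left.2 fun y y1 y2 => ?_
    obtain ⟨a, a1, a2, a3⟩ := mem_ball π _ r y y1
    obtain ⟨b, b1, b2, b3⟩ := mem_ball π _ r y y2
    have t1 := (C.walk_append π _ _ v).1 ((List.take_append_drop (i * (2 * r + 1)) w).symm ▸ w1)
    have t2 := (C.walk_append π _ _ v).1 ((List.take_append_drop (j * (2 * r + 1)) w).symm ▸ w1)
    have e : run π (run π (x i) a) b.reverse = x j := by rw [a2, ← b2, C.run_rev hi]
    have := mn (w.take (i * (2 * r + 1)) ++ (a ++ (b.reverse ++ w.drop (j * (2 * r + 1)))))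
      (by
        rw [C.walk_append, C.walk_append, C.walk_append]
        refine ⟨t1.1, a1, ?_, ?_⟩
        · change Walk π (run π (x i) a) _
          rw [a2, ← b2]; exact walk_rev hi _ _ b1
        · change Walk π (run π (run π (x i) a) _) _
          rw [e]; exact t2.2)
      (by
        rw [C.run_append, C.run_append, C.run_append]
        change run π (run π (run π (x i) a) _) _ = _
        rw [e, ← C.run_append, List.take_append_drop])
    have l1 : (i + 1) * (2 * r + 1) ≤ j * (2 * r + 1) := Nat.mul_le_mul_right _ hij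
    have l2 : j * (2 * r + 1) ≤ J * (2 * r + 1) := Nat.mul_le_mul_right _ hj.le
    rw [Nat.succ_mul] at l1
    simp only [List.length_append, List.length_take, List.length_reverse, List.length_drop] at this
    omega
  have h1 := card_biUnion (s := range J) (t := fun i => C.ball π (x i) r)
    fun i hi' j hj' ne => (lt_or_gt_of_ne ne).elim (fun k => dj i j k (mem_range.1 hj'))
      fun k => (dj j i k (mem_range.1 hi')).symm
  have h2 := card_le_univ ((range J).biUnion fun i => C.ball π (x i) r)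
  have h3 := card_nsmul_le_sum (range J) (fun i => c₀ * (C.ball π (x i) r).card) (N + 1)
    fun i _ => h (x i)
  rw [← mul_sum, ← h1, card_range, smul_eq_mul] at h3
  exact absurd (h3.trans (Nat.mul_le_mul_left _ h2)) hV.not_ge

theorem nb_mono [Fintype S] (π : S → V → V) {U U' : Finset V} (h : U ⊆ U') :
    nb π U ⊆ nb π U' := fun x hx => by
  simp only [nb, mem_union, mem_biUnion, mem_univ, mem_image, true_and] at hx ⊢
  exact hx.imp (@h x) fun ⟨s, y, k, e⟩ => ⟨s, y, h k, e⟩

theorem mem_nb [Fintype S] (π : S → V → V) {U : Finset V} {u : V} (h : u ∈ U) (s : S) :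
    π s u ∈ nb π U := by
  simp only [nb, mem_union, mem_biUnion, mem_univ, mem_image, true_and]
  exact Or.inr ⟨s, u, h, rfl⟩

/-- small sets of even vertices expand in two steps -/
def Exp2 [Fintype S] (π : S → V → V) (e : V → Bool) (c N : ℕ) : Prop :=
  ∀ U : Finset V, U.Nonempty → (∀ u ∈ U, e u = true) → c * U.card ≤ N →
    2 * U.card < ((nb π (nb π U)).filter fun u => e u = true).card

theorem ball_big2 [Fintype S] {π : S → V → V} {e : V → Bool} {c N : ℕ} (h : Exp2 π e c N) {u : V}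
    (hu : e u = true) (r : ℕ) : N < c * ((C.ball π u (2 * r)).filter fun u => e u = true).card ∨
      2 ^ r ≤ ((C.ball π u (2 * r)).filter fun u => e u = true).card := by
  induction r with
  | zero => simp [C.ball, filter_singleton, hu]
  | succ r ih =>
    have e1 : C.ball π u (2 * (r + 1)) = nb π (nb π (C.ball π u (2 * r))) := rfl
    have s1 : ∀ U : Finset V, U ⊆ nb π U := fun U => by
      classical
      rw [nb]; convert subset_union_left
    by_cases k : N < c * ((C.ball π u (2 * r)).filter fun u => e u = true).card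
    · exact Or.inl (k.trans_le (Nat.mul_le_mul_left _ (card_le_card (filter_subset_filter _
        (e1 ▸ (s1 _).trans (s1 _))))))
    · have h2 := ih.resolve_left k
      have h3 := h _ (card_pos.1 (lt_of_lt_of_le (Nat.two_pow_pos r) h2))
        (fun u k => (mem_filter.1 k).2) (not_lt.1 k)
      have h4 := card_le_card (filter_subset_filter (fun u => e u = true) (nb_mono π (nb_mono π
        (filter_subset (fun u => e u = true) (C.ball π u (2 * r))))))
      right; rw [pow_succ, e1]; omega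

theorem count_le {M N k a d b : ℕ} (hM : M ≤ 300 * N) (hk : 10 ^ 16 * k ≤ N) (k0 : 0 < k)
    (a0 : 0 < a) (b0 : 0 < b) (b3 : b ≤ 3) (ab : a + b ≤ 5) (hd : d * a = a + b + 1) :
    (M.choose (a * k) * (M.choose (b * k) * (d * a * k * (b * k)).choose (d * a * k)) : ℝ) ≤
      (1 / 10) ^ k * (9 * N) ^ (d * a * k) := by
  have k1 : (0 : ℝ) < k := by exact_mod_cast k0
  have h3 : (10 ^ 16 * k : ℝ) ≤ N := by exact_mod_cast hk
  have N0 : (0 : ℝ) < N := by linarith
  have h1 : ∀ t, 0 < t → (M.choose (t * k) : ℝ) ≤ (900 * N / k) ^ (t * k) := fun t ht => by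
    have t1 : (1 : ℝ) ≤ t := by exact_mod_cast ht
    have := choose_le M (t * k)
    rw [← le_div_iff₀ (by positivity), ← div_pow] at this
    refine this.trans (pow_le_pow_left₀ (by positivity) ?_ _)
    have : (M : ℝ) ≤ 300 * N := by exact_mod_cast hM
    push_cast
    exact div_le_div₀ (by positivity) (by linarith) k1 (by nlinarith)
  have h2 : ((d * a * k * (b * k)).choose (d * a * k) : ℝ) ≤ (9 * k) ^ (d * a * k) := by
    have e0 : 0 < d * a * k := Nat.mul_pos (by omega) k0
    obtain ⟨n, hn⟩ : ∃ n, n = d * a * k := ⟨_, rfl⟩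
    rw [← hn] at e0 ⊢
    have n0 : (0 : ℝ) < n := by exact_mod_cast e0
    have := choose_le (n * (b * k)) n
    rw [← le_div_iff₀ (by positivity), ← div_pow] at this
    refine this.trans (pow_le_pow_left₀ (by positivity) ?_ _)
    have : (b : ℝ) ≤ 3 := by exact_mod_cast b3
    push_cast
    rw [div_le_iff₀ n0]
    nlinarith [mul_pos n0 k1]
  have h4 : (900 : ℝ) ^ (a + b) ≤ 900 ^ 5 := pow_le_pow_right₀ (by norm_num) ab
  calc _ ≤ (900 * N / k : ℝ) ^ (a * k) * ((900 * N / k) ^ (b * k) * (9 * k) ^ (d * a * k)) := by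
        gcongr
        exacts [h1 a a0, h1 b b0]
    _ = ((900 * N / k) ^ (a + b) * (9 * k) ^ (a + b + 1)) ^ k := by
      rw [hd, pow_mul, pow_mul, pow_mul, ← mul_pow, ← mul_pow, ← mul_assoc, ← pow_add]
    _ ≤ (1 / 10 * (9 * N) ^ (a + b + 1)) ^ k := by
      refine pow_le_pow_left₀ (by positivity) ?_ _
      have e : (900 * N / k : ℝ) ^ (a + b) * (9 * k) ^ (a + b + 1) =
          (900 ^ (a + b) * (9 * k)) * (9 * N) ^ (a + b) := by
        rw [pow_succ, ← mul_assoc, ← mul_pow, show (900 * N / k : ℝ) * (9 * k) = 900 * (9 * N) by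
          field_simp, mul_pow]
        ring
      rw [e, pow_succ' (9 * N : ℝ), ← mul_assoc (1 / 10 : ℝ)]
      refine mul_le_mul_of_nonneg_right ?_ (by positivity)
      nlinarith
    _ = _ := by rw [mul_pow, ← pow_mul, hd]

open Classical in
/-- graphs in which many edges from a small set land in a small set -/
noncomputable def bad [Fintype S] [Fintype V] (m : Model S X V) (g : ℕ) (L' : V → Finset S)
    (a n b : ℕ) : Finset (S → V → V) :=
  (powersetCard a univ).biUnion fun U : Finset V => (powersetCard b univ).biUnion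
    fun W : Finset V => ((powersetCard n (U.biUnion fun u => {u} ×ˢ (L' u ×ˢ W))).filter
      Sep).biUnion fun F => (GG m g).filter fun π => Has π F

theorem mem_bad [Fintype S] [Fintype V] {m : Model S X V} {ev : X → Bool}
    (hf : ∀ s x, ev (m.act s x) = !ev x) {g : ℕ} {π : S → V → V} (hπ : π ∈ GG m g)
    {L' : V → Finset S} {U Z : Finset V} {d b : ℕ} {p : Bool} (h0 : ∀ u ∈ U, ev (m.τ u) = p)
    (h1 : ∀ u ∈ U, L' u ⊆ m.L u ∧ (L' u).card = d) (h2 : ∀ u ∈ U, ∀ s ∈ m.L u, π s u ∈ Z)
    (h3 : Z.card ≤ b) (h4 : b ≤ Fintype.card V) : π ∈ bad m g L' U.card (d * U.card) b := by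
  classical
  have hv : Valid m π := (mem_filter.1 hπ).2.1
  obtain ⟨W, w1, w2⟩ := exists_superset_card_eq h3 h4
  let E : Finset (V × S × V) := U.biUnion fun u => (L' u).image fun s => (u, s, π s u)
  have hE : ∀ e, e ∈ E ↔ e.1 ∈ U ∧ e.2.1 ∈ L' e.1 ∧ π e.2.1 e.1 = e.2.2 := fun e => by
    simp only [E, mem_biUnion, mem_image]
    exact ⟨by rintro ⟨u, hu, s, hs, rfl⟩; exact ⟨hu, hs, rfl⟩,
      fun k => ⟨_, k.1, _, k.2.1, by rw [k.2.2]⟩⟩
  have cE : E.card = d * U.card := by
    rw [card_biUnion, sum_congr rfl fun u hu => (card_image_of_injective _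
      fun s t e => congrArg (·.2.1) e).trans (h1 u hu).2, sum_const, smul_eq_mul, mul_comm]
    intro u _ v _ ne
    refine disjoint_left.2 fun e a b => ne ?_
    obtain ⟨s, -, rfl⟩ := mem_image.1 a
    obtain ⟨t, -, k⟩ := mem_image.1 b
    exact (congrArg (·.1) k).symm
  have ne : ∀ e ∈ E, ∀ e' ∈ E, e.1 ≠ e'.2.2 := fun e he e' he' k => by
    obtain ⟨k1, k2, k3⟩ := (hE e').1 he'
    have := ((hv _ _).2.2 ((h1 _ k1).1 k2)).2
    have e1 := h0 _ ((hE e).1 he).1
    rw [k, ← k3, this, hf, h0 _ k1] at e1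
    simp at e1
  simp only [bad, mem_biUnion, mem_filter, mem_powersetCard]
  refine ⟨U, ⟨subset_univ _, rfl⟩, W, ⟨subset_univ _, w2⟩, E, ⟨⟨fun e he => ?_, cE⟩,
    fun e he => ne e he e he, fun e he e' he' k k' => ⟨fun c => k ?_, ne e he e' he'⟩⟩, hπ,
    fun e he => ((hE e).1 he).2.2⟩
  · obtain ⟨k1, k2, k3⟩ := (hE e).1 he
    simp only [mem_biUnion, mem_product, mem_singleton]
    exact ⟨_, k1, rfl, k2, w1 (k3 ▸ h2 _ k1 _ ((h1 _ k1).1 k2))⟩
  · exact Prod.ext c (Prod.ext k' (by rw [← ((hE e).1 he).2.2, ← ((hE e').1 he').2.2, c, k']))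

theorem card_bad [Fintype S] [Fintype V] {m : Model S X V} {g N : ℕ} (hB : Big m (10 * N))
    (hV : Fintype.card V ≤ 300 * N) (hN : 100 * (Fintype.card S + 1) ^ (g + 2) ≤ N)
    {L' : V → Finset S} {k a d b : ℕ} (hL : ∀ u, (L' u).card ≤ d) (hk : 10 ^ 16 * k ≤ N)
    (k0 : 0 < k) (a0 : 0 < a) (b0 : 0 < b) (b3 : b ≤ 3) (ab : a + b ≤ 5) (hd : d * a = a + b + 1) :
    ((bad m g L' (a * k) (d * (a * k)) (b * k)).card : ℝ) ≤ (1 / 10) ^ k * (GG m g).card := by
  classical
  have N0 : (0 : ℝ) < N := by exact_mod_cast (by omega : 0 < N)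
  have bu : ∀ {α : Type} (s : Finset α) (t : α → Finset (S → V → V)) (c : ℝ) (a : ℕ),
      s.card ≤ a → 0 ≤ c → (∀ x ∈ s, ((t x).card : ℝ) ≤ c) → ((s.biUnion t).card : ℝ) ≤ a * c := by
    intro α s t c a ha hc ht
    have e : ((s.biUnion t).card : ℝ) ≤ ∑ x ∈ s, ((t x).card : ℝ) := by
      exact_mod_cast card_biUnion_le
    refine e.trans ((sum_le_card_nsmul _ _ _ ht).trans ?_)
    rw [nsmul_eq_mul]
    gcongr
  have c0 : (0 : ℝ) ≤ (GG m g).card / (9 * N) ^ (d * a * k) := by positivity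
  rw [bad, ← mul_assoc]
  refine (bu _ _ ((Fintype.card V).choose (b * k) * ((d * a * k * (b * k)).choose (d * a * k) *
    ((GG m g).card / (9 * N) ^ (d * a * k)))) ((Fintype.card V).choose (a * k)) (by simp)
    (by positivity) fun U hU => bu _ _ _ _ (by simp) (by positivity) fun W hW => bu _ _ _ _ ?_ c0
      fun F hF => ?_).trans ?_
  · refine (card_filter_le _ _).trans ?_
    rw [card_powersetCard]
    refine Nat.choose_le_choose _ ((card_biUnion_le_card_mul _ _ (d * (b * k)) fun u _ => ?_).trans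
      (le_of_eq (by rw [(mem_powersetCard.1 hU).2]; ring)))
    rw [card_product, card_product, card_singleton, one_mul, (mem_powersetCard.1 hW).2]
    exact Nat.mul_le_mul_right _ (hL u)
  · obtain ⟨f1, f2⟩ := mem_filter.1 hF
    have f3 := (mem_powersetCard.1 f1).2
    have f4 : F.card ≤ 6 * k := f3 ▸ Nat.mul_le_mul_right _ (by omega)
    have := prob_has S X V m g (10 * N) (9 * N) F hB f2 (by omega)
    rw [le_div_iff₀ (by positivity), ← f3]
    exact_mod_cast this
  · have := mul_le_mul_of_nonneg_right (count_le hV hk k0 a0 b0 b3 ab hd) c0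
    simp only [mul_assoc] at this ⊢
    rwa [mul_div_cancel₀ _ (by positivity)] at this

end Di

open Di in
theorem diam2 : DiamStmt2 := by
  refine ⟨3 * (300 * 10 ^ 16), fun S X V _ _ m ev Sg g N r hb hN hr => ?_⟩
  classical
  have ex : ∀ d v, ∃ L : Finset S, L.card ≤ d ∧ (d ≤ (m.L v).card → L ⊆ m.L v ∧ L.card = d) :=
    fun d v => by
      by_cases k : d ≤ (m.L v).card
      · obtain ⟨L, l1, l2⟩ := exists_subset_card_eq k
        exact ⟨L, l2.le, fun _ => ⟨l1, l2⟩⟩
      · exact ⟨∅, by simp, fun k' => absurd k' k⟩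
  choose L' h1 h2 using ex
  let bd : ℕ → Finset (S → V → V) := fun k => bad m g (L' 5) (1 * k) (5 * (1 * k)) (3 * k) ∪
    bad m g (L' 2) (3 * k) (2 * (3 * k)) (2 * k)
  have col : ∀ v, ∃ s, s ∈ m.L v := fun v => card_pos.1 (lt_of_lt_of_le two_pos (hb.deg v))
  have sub : (GG m g).filter (fun π => ¬ Diam π (3 * (300 * 10 ^ 16) * (2 * r + 1))) ⊆
      (Icc 1 (N / 10 ^ 16)).biUnion bd := fun π hπ => by
    obtain ⟨k1, k2⟩ := mem_filter.1 hπ
    have hv : Valid m π := (mem_filter.1 k1).2.1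
    have fl : ∀ u, ∀ s ∈ m.L u, ev (m.τ (π s u)) = !ev (m.τ u) := fun u s k => by
      rw [((hv s u).2.2 k).2, hb.flip]
    have k3 : ¬ Exp2 π (fun v => ev (m.τ v)) (10 ^ 16) N := fun e => k2 fun v w hw => by
      obtain ⟨w', a1, a2, a3⟩ := diam_of_big (r := 2 * r + 1) (c₀ := 10 ^ 16) (N := N)
        (J := 300 * 10 ^ 16) (fun s v => (hv s v).1) (fun v => by
          obtain ⟨u, u1, u2⟩ : ∃ u, u ∈ C.ball π v 1 ∧ ev (m.τ u) = true := by
            obtain ⟨s, hs⟩ := col v
            by_cases k : ev (m.τ v) = true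
            · exact ⟨v, C.run_mem_ball π v [] v 0 1 (by simp [C.ball]) (by simp), k⟩
            · exact ⟨_, C.run_mem_ball π v [s] v 0 1 (by simp [C.ball]) (by simp),
                (fl v s hs).trans (by simpa using k)⟩
          have b1 := ball_big2 e u2 r
          have b2 : ((C.ball π u (2 * r)).filter fun u => ev (m.τ u) = true).card ≤
              (C.ball π v (2 * r + 1)).card := card_le_card fun x hx => by
            obtain ⟨w, -, rfl, c3⟩ := mem_ball π u _ x (mem_filter.1 hx).1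
            exact C.run_mem_ball π v w u 1 _ u1 (by omega)
          have := Nat.two_pow_pos r
          omega) (by have := hb.card; omega) v w hw
      exact ⟨w', a1, a2, by omega⟩
    simp only [Exp2, not_forall, not_lt] at k3
    obtain ⟨U, u1, u0, u2, u3⟩ := k3
    have cV : 10 * N ≤ Fintype.card V := by
      obtain ⟨u, -⟩ := u1
      obtain ⟨s, hs⟩ := col u
      exact (hb.big s u hs).trans (card_le_univ _)
    refine mem_biUnion.2 ⟨U.card, mem_Icc.2 ⟨u1.card_pos, by omega⟩, mem_union.2 ?_⟩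
    by_cases c : ((nb π U).filter fun u => ev (m.τ u) = false).card ≤ 3 * U.card
    · left
      rw [one_mul]
      exact mem_bad hb.flip k1 u0 (fun u k => h2 5 u (hb.degE u (u0 u k)))
        (fun u k s hs => mem_filter.2 ⟨mem_nb π k s, by rw [fl u s hs, u0 u k]; rfl⟩) c (by omega)
    · right
      obtain ⟨A, a1, a2⟩ := exists_subset_card_eq (not_le.1 c).le
      rw [← a2]
      exact mem_bad hb.flip k1 (fun u k => (mem_filter.1 (a1 k)).2) (fun u k => h2 2 u (hb.deg u))
        (fun u k s hs => mem_filter.2 ⟨mem_nb π (mem_filter.1 (a1 k)).1 s, by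
          rw [fl u s hs, (mem_filter.1 (a1 k)).2]; rfl⟩) u3 (by omega)
  have hbd : ∀ k ∈ Icc 1 (N / 10 ^ 16), ((bd k).card : ℝ) ≤ 2 * (1 / 10) ^ k * (GG m g).card := by
    intro k hk
    obtain ⟨k1, k2⟩ := mem_Icc.1 hk
    have a1 := card_bad hb.big hb.card hN (k := k) (a := 1) (b := 3) (h1 5) (by omega) k1
      (by omega) (by omega) (by omega) (by omega) (by omega)
    have a2 := card_bad hb.big hb.card hN (k := k) (a := 3) (b := 2) (h1 2) (by omega) k1
      (by omega) (by omega) (by omega) (by omega) (by omega)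
    have a3 : ((bd k).card : ℝ) ≤ _ := Nat.cast_le.2 (card_union_le _ _)
    push_cast at a3
    linarith
  have geo : ∀ K : ℕ, ∑ k ∈ Icc 1 K, 2 * (1 / 10 : ℝ) ^ k ≤ 1 / 4 - 1 / 4 * (1 / 10) ^ K :=
    fun K => by
      induction K with
      | zero => simp
      | succ K ih =>
        have : (0 : ℝ) ≤ (1 / 10) ^ K := by positivity
        rw [sum_Icc_succ_top (by omega), pow_succ]; linarith
  have e1 : (((Icc 1 (N / 10 ^ 16)).biUnion bd).card : ℝ) ≤
      ∑ k ∈ Icc 1 (N / 10 ^ 16), ((bd k).card : ℝ) := by exact_mod_cast card_biUnion_le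
  have e2 := e1.trans (sum_le_sum hbd)
  rw [← sum_mul] at e2
  have e3 := geo (N / 10 ^ 16)
  have e4 : (0 : ℝ) ≤ (1 / 10) ^ (N / 10 ^ 16) := by positivity
  have e5 : (4 * ((Icc 1 (N / 10 ^ 16)).biUnion bd).card : ℝ) ≤ (GG m g).card := by
    nlinarith [(GG m g).card.cast_nonneg (α := ℝ)]
  have e6 := card_le_card sub
  have e7 : 4 * ((Icc 1 (N / 10 ^ 16)).biUnion bd).card ≤ (GG m g).card := by exact_mod_cast e5
  convert (Nat.mul_le_mul_left 4 e6).trans e7

end Vale.Agent.P201
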