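import Vale.Agent.P201.Pat2
import Vale.Agent.P194.FM
import Vale.Agent.P194.Layer

namespace Vale.Agent.P201

open Vale.Agent.P194 Vale.Agent.P194.N Finset

theorem numer2 {a G Ns n2 M M0 Z E f v T B h P : ℕ} (hM : M ≤ M0) (hN : 1 ≤ n2) (hZ : 1 ≤ Z)
    (h1 : a ^ (2 * M) * Ns ^ (2 * E) ≤ 24 ^ f * Z ^ M * n2 ^ (2 * v) * 5 ^ E * G ^ (2 * M))
    (h2 : 2495 * n2 ^ 2 ≤ 100 * Ns ^ 2) (h3 : v ≤ T) (h4 : T ≤ E) (h5 : 2 * f ≤ T + B + M)
    (h6 : 100 * B ≤ T) (h7 : 2 * h ≤ T) (h8 : (24 ^ 100 * Z ^ 200 * P ^ 400) ^ M0 < 2 ^ h) :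
    P * a ≤ G := by
  by_contra hc
  have hc : G ≤ P * a := by omega
  have a0 : 0 < a := by
    rcases Nat.eq_zero_or_pos a with rfl | k
    · simp at *
    · exact k
  have P0 : 0 < P := by
    rcases Nat.eq_zero_or_pos P with rfl | k
    · simp at *
    · exact k
  obtain ⟨d, rfl⟩ := Nat.exists_eq_add_of_le h4
  have s5 : 5 ≤ Ns ^ 2 := by nlinarith
  have a1 : 499 ^ T ≤ 100 ^ T * 24 ^ f * Z ^ M * P ^ (2 * M) := by
    refine Nat.le_of_mul_le_mul_right (c := a ^ (2 * M) * (n2 ^ 2) ^ T * 5 ^ (T + d)) ?_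
      (by positivity)
    calc _ = a ^ (2 * M) * (2495 * n2 ^ 2) ^ T * 5 ^ d := by
          rw [show 2495 = 499 * 5 by norm_num]; simp only [mul_pow, pow_add]; ring
      _ ≤ a ^ (2 * M) * (100 * Ns ^ 2) ^ T * (Ns ^ 2) ^ d := by gcongr
      _ = 100 ^ T * (a ^ (2 * M) * Ns ^ (2 * (T + d))) := by
          rw [pow_mul Ns, pow_add, mul_pow]; ring
      _ ≤ 100 ^ T * (24 ^ f * Z ^ M * n2 ^ (2 * v) * 5 ^ (T + d) * G ^ (2 * M)) := by gcongr
      _ ≤ 100 ^ T * (24 ^ f * Z ^ M * n2 ^ (2 * T) * 5 ^ (T + d) * (P * a) ^ (2 * M)) := by gcongr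
      _ = _ := by rw [mul_pow P, pow_mul n2]; ring
  obtain ⟨x, hx⟩ : ∃ x : ℕ, x = 24 := ⟨_, rfl⟩
  obtain ⟨y, hy⟩ : ∃ y : ℕ, y = 100 := ⟨_, rfl⟩
  obtain ⟨z, hz⟩ : ∃ z : ℕ, z = 499 := ⟨_, rfl⟩
  have b0 : 3 * (x ^ 101 * y ^ 200) ≤ 2 * z ^ 200 := by
    rw [hx, hy, hz]; decide +kernel
  have x1 : 1 ≤ x := by omega
  have y1 : 1 ≤ y := by omega
  rw [← hx] at h8
  rw [← hz, ← hy, ← hx] at a1
  have a2 : 3 ^ T ≤ 2 ^ T * (x ^ 100 * Z ^ 200 * P ^ 400) ^ M := by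
    refine Nat.le_of_mul_le_mul_right (c := (x ^ 101 * y ^ 200) ^ T) ?_ (by positivity)
    calc _ = (3 * (x ^ 101 * y ^ 200)) ^ T := by rw [mul_pow 3]
      _ ≤ (2 * z ^ 200) ^ T := by gcongr
      _ = 2 ^ T * (z ^ T) ^ 200 := by simp only [mul_pow, ← pow_mul, mul_comm T]
      _ ≤ 2 ^ T * (y ^ T * x ^ f * Z ^ M * P ^ (2 * M)) ^ 200 := by gcongr
      _ = 2 ^ T * (x ^ (f * 200) * (y ^ T * Z ^ M * P ^ (2 * M)) ^ 200) := by
          simp only [mul_pow, ← pow_mul]; ac_rfl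
      _ ≤ 2 ^ T * (x ^ (100 * M + 101 * T) * (y ^ T * Z ^ M * P ^ (2 * M)) ^ 200) := by
          gcongr; omega
      _ = _ := by
          simp only [mul_pow, ← pow_mul, pow_add, mul_comm M, mul_comm T,
            show 2 * M * 200 = 400 * M by ring]
          ac_rfl
  have a3 : (x ^ 100 * Z ^ 200 * P ^ 400) ^ M ≤ (x ^ 100 * Z ^ 200 * P ^ 400) ^ M0 :=
    Nat.pow_le_pow_right (by positivity) hM
  obtain ⟨e, rfl⟩ := Nat.exists_eq_add_of_le h7
  have a4 : 2 ^ (2 * h + e) * 2 ^ h ≤ 3 ^ (2 * h + e) := by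
    calc _ = 8 ^ h * 2 ^ e := by
          rw [show (8 : ℕ) = 2 ^ 3 by norm_num, ← pow_mul, ← pow_add, ← pow_add]; congr 1; ring
      _ ≤ 9 ^ h * 3 ^ e := by gcongr <;> norm_num
      _ = _ := by rw [show (9 : ℕ) = 3 ^ 2 by norm_num, ← pow_mul, ← pow_add]
  have a5 := Nat.le_of_mul_le_mul_left (a4.trans a2) (by positivity)
  omega

/-- parity pattern of a drawing -/
def pcode {V : Type} (T : ℕ) (p : V → Bool) (tl : ℕ → V) (i : ℕ) : Option Bool :=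
  if i ≤ T then some (p (tl i)) else none

section
variable {X V : Type} {c0 : V} {A : Finset (Fin 21 → V → V)} {T B R : (Fin 21 → V → V) → ℕ}
  {cl : (Fin 21 → V → V) → ℕ → Fin 21} {tl : (Fin 21 → V → V) → ℕ → V}
  {nx μ : (Fin 21 → V → V) → ℕ → ℕ} {K C h Q : ℕ}

open Classical in
theorem count_cd (hd : ∀ π ∈ A, Cfg π c0 (T π) (B π) (R π) (cl π) (tl π) (nx π) (μ π) ∧ R π ≤ K ∧
      2 * h + 1 ≤ T π ∧ 100 * B π ≤ T π ∧ T π ≤ C * h) (hh : 1 ≤ h)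
    (gg : ∀ π ∈ A, Invo π ∧ Girth π (2 * h)) (kk : ∀ π ∈ A, 4 * (T π / h + 1 + R π + 1) ^ 2 ≤ Q) :
    (A.image fun π => code (T π) (tl π) (nx π) (μ π) c0).card ≤
      (((C + 1) * (2 * (2 * C + 2) ^ 5 + 1) + 1) * h ^ 6) ^ (3 * Q + 1) := by
  let r := range (2 * (C * h) + 2)
  refine (count_simple (C * h) (3 * Q) (insertNone (r ×ˢ r ×ˢ r ×ˢ r ×ˢ r ×ˢ univ)) stp none _
    (forall_mem_image.2 fun π k i hi => if_neg (by have := (hd π k).2.2.2.2; omega))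
    (forall_mem_image.2 fun π k i hi => ?_) (forall_mem_image.2 fun π k => ?_)).trans ?_
  · obtain ⟨b0, -, -, b3, b4⟩ := hd π k
    simp only [mem_insertNone, Option.mem_def]
    split_ifs with k1 k2
    · have := b0.nx_le i k2
      have := b0.mu_lt i k2
      have := rt_le (T π) (tl π) c0
      have := rep_le (tl π) i
      simp [r]
      omega
    · have := rt_le (T π) (tl π) c0
      have := rep_le (tl π) i
      simp [r]
      omega
    · simp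
  · have := code_brk (hd π k).1 (gg π k).1 hh (gg π k).2 (C * h)
    have := kk π k
    exact (show _ ≤ 3 * Q by omega : ((range (C * h)).filter fun i =>
      code (T π) (tl π) (nx π) (μ π) c0 (i + 1) ≠
        stp (code (T π) (tl π) (nx π) (μ π) c0 i)).card ≤ _)
  · refine Nat.pow_le_pow_left ?_ _
    simp only [card_insertNone, card_product, r, card_range, card_univ, Fintype.card_bool]
    have e1 : C * h + 1 ≤ (C + 1) * h := by nlinarith
    have e2 : 2 * (C * h) + 2 ≤ (2 * C + 2) * h := by nlinarith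
    have e3 : 1 ≤ h ^ 5 := Nat.one_le_pow _ _ hh
    have e4 : 1 ≤ h ^ 6 := Nat.one_le_pow _ _ hh
    calc _ = (C * h + 1) * (2 * (2 * (C * h) + 2) ^ 5 + 1) + 1 := by ring
      _ ≤ (C + 1) * h * (2 * ((2 * C + 2) * h) ^ 5 + h ^ 5) + h ^ 6 := by gcongr
      _ = _ := by ring

open Classical in
theorem count_pc [Fintype V] {m : Model (Fin 21) X V} {ev : X → Bool}
    {Sg : Finset (Fin 21 × Fin 21)} {N : ℕ} (hB : Bip m ev Sg N)
    (hd : ∀ π ∈ A, Cfg π c0 (T π) (B π) (R π) (cl π) (tl π) (nx π) (μ π) ∧ R π ≤ K ∧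
      2 * h + 1 ≤ T π ∧ 100 * B π ≤ T π ∧ T π ≤ C * h) (hh : 1 ≤ h) (vv : ∀ π ∈ A, Valid m π) :
    (A.image fun π => pcode (T π) (fun v => ev (m.τ v)) (tl π)).card ≤
      ((3 * C + 4) * h) ^ (K + 2) := by
  refine (count_simple (C * h) (K + 1) univ (Option.map not) none _
    (forall_mem_image.2 fun π k i hi => if_neg (by have := (hd π k).2.2.2.2; omega))
    (fun _ _ _ _ => mem_univ _) (forall_mem_image.2 fun π k => ?_)).trans ?_
  · obtain ⟨b0, b1, -⟩ := hd π k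
    refine (card_le_card (t := insert (T π) ((range (T π)).filter (Brk (T π) (nx π) (μ π))))
      fun i hi => ?_).trans ((card_insert_le _ _).trans (by have := b0.brk; omega))
    have k1 := (mem_filter.1 hi).2
    by_contra k2
    simp only [mem_insert, mem_filter, mem_range, not_or, not_and] at k2
    rcases lt_or_ge i (T π) with b | b
    · have e := (not_not.1 (k2.2 b)).1
      obtain ⟨s1, s2⟩ := b0.step i b
      have := (par_edge hB (vv π k) s1 s2).1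
      rw [e] at this
      exact k1 (by simp [b.le, show i + 1 ≤ T π from b, this])
    · exact k1 (by simp [show ¬ i ≤ T π by omega, show ¬ i + 1 ≤ T π by omega])
  · refine Nat.pow_le_pow_left ?_ _
    simp only [card_univ, Fintype.card_option, Fintype.card_bool]
    nlinarith

end

theorem big_h (c Q C K y : ℕ) : ∃ h1, ∀ h, h1 ≤ h →
    (y * (8 * ((c * h ^ 6) ^ (3 * Q + 1) * ((3 * C + 4) * h) ^ (K + 2))) ^ 400) ^ (5 * K + 1) <
      2 ^ h := by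
  obtain ⟨h1, H1⟩ := exp_big (2 * (y *
    (8 * (c ^ (3 * Q + 1) * (3 * C + 4) ^ (K + 2))) ^ 400) ^ (5 * K + 1))
    ((6 * (3 * Q + 1) + (K + 2)) * 400 * (5 * K + 1))
  refine ⟨h1, fun h a1 => ?_⟩
  have e := H1 h a1
  have : 8 * ((c * h ^ 6) ^ (3 * Q + 1) * ((3 * C + 4) * h) ^ (K + 2)) =
      8 * (c ^ (3 * Q + 1) * (3 * C + 4) ^ (K + 2)) * h ^ (6 * (3 * Q + 1) + (K + 2)) := by
    rw [mul_pow c, mul_pow (3 * C + 4), ← pow_mul h, pow_add h (6 * (3 * Q + 1))]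
    generalize h ^ (6 * (3 * Q + 1)) = a; generalize h ^ (K + 2) = b; ring
  rw [this, mul_pow _ _ 400, ← pow_mul h, ← mul_assoc y, mul_pow _ _ (5 * K + 1), ← pow_mul h]
  rw [mul_assoc 2] at e
  have : 0 < 2 ^ h := Nat.two_pow_pos h
  omega

theorem fibre {X V : Type} [Fintype V] {m : Model (Fin 21) X V} {ev : X → Bool}
    {Sg : Finset (Fin 21 × Fin 21)} {N g h C K Q P T B R : ℕ} {c0 : V} {π₀ : Fin 21 → V → V}
    {cl0 : ℕ → Fin 21} {tl0 : ℕ → V} {nx μ : ℕ → ℕ} {pr : ℕ → Bool}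
    {A : Finset (Fin 21 → V → V)} {cl : (Fin 21 → V → V) → ℕ → Fin 21}
    {tl : (Fin 21 → V → V) → ℕ → V} (hB : Bip m ev Sg N) (b0 : Cfg π₀ c0 T B R cl0 tl0 nx μ)
    (b2 : 2 * h + 1 ≤ T) (b3 : 100 * B ≤ T) (b4 : T ≤ C * h) (g1 : Invo π₀)
    (g2 : Girth π₀ (2 * h)) (hh : 1 ≤ h) (hh2 : 2 * h ≤ g) (a2 : C ≤ h)
    (k1 : T / h + 1 + R ≤ 5 * K + 1) (k2 : 4 * (T / h + 1 + R + 1) ^ 2 ≤ Q)
    (hN : 1000 * 22 ^ (g + 2) ≤ N)
    (fam : Fam m ev c0 g T nx μ (rep tl0) (rt T tl0 c0) pr A cl tl)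
    (H2 : (24 ^ 100 * (441 ^ (21 * (Q + 1)) * 150 ^ (2 * Q)) ^ 200 * P ^ 400) ^ (5 * K + 1) <
      2 ^ h) : P * A.card ≤ (GG m g).card := by
  obtain ⟨F, Vt, Fr, Ir, ρ, d1, d2, d3, d4, d5⟩ := layers _ _ _ _ _ _ _ h _ _ _ _ b0 g1 hh g2
  obtain ⟨W, hW⟩ : ∃ W, W = 22 ^ (g + 2) := ⟨_, rfl⟩
  have w1 : C * h ≤ W ∧ 1 ≤ W := by
    have e1 : h ≤ 22 ^ h := (Nat.lt_pow_self (by norm_num)).le
    have e2 : 22 ^ h * 22 ^ h ≤ W := by
      rw [hW, ← pow_add]; exact Nat.pow_le_pow_right (by norm_num) (by omega)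
    have e3 : C * h ≤ 22 ^ h * 22 ^ h := Nat.mul_le_mul (a2.trans e1) e1
    exact ⟨e3.trans e2, hW ▸ Nat.pow_pos (by norm_num)⟩
  rw [← hW] at hN
  obtain ⟨Ns, hs⟩ : ∃ Ns, Ns = 10 * N - 2 * W - 2 * (C * h) := ⟨_, rfl⟩
  have s1 : 9996 * N ≤ 1000 * Ns := by clear H2; omega
  have s2 : 2495 * (2 * N) ^ 2 ≤ 100 * Ns ^ 2 := by
    have := Nat.mul_le_mul s1 s1
    clear * - this
    nlinarith
  have s3 : ∀ k, Ns + 2 * 22 ^ (g + 2) + 2 * (F k).card ≤ 10 * N := fun k => by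
    have f1 : (F k).card ≤ T :=
      (card_le_card fun j hj => mem_range.2 ((d1 k).F_lt j hj)).trans_eq (card_range _)
    rw [← hW]; clear H2; omega
  refine numer2 (M := T / h + 1 + R) (Ns := Ns) (n2 := 2 * N) k1 (by clear H2; omega)
    (Nat.mul_pos (Nat.pow_pos (by norm_num)) (Nat.pow_pos (by norm_num))) ?_
    s2 d4 d2 d3 b3 (by clear H2; omega) H2
  clear H2
  have pt : ∀ k, A.card ^ 2 * Ns ^ (2 * (F k).card) ≤ 24 ^ ((F k).filter (· ∈ Fr)).card *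
      (441 ^ (21 * (Q + 1)) * 150 ^ (2 * Q)) *
      (2 * N) ^ (2 * (Vt k).card) * 5 ^ (F k).card * (GG m g).card ^ 2 := fun k => by
    have := pattern2 (Ns := Ns) fam (by omega) hB (d1 k) (s3 k)
    rw [mul_pow, ← pow_mul, mul_comm _ 2] at this
    refine this.trans ?_
    have f2 : Ir.card ≤ Q := d5.trans k2
    calc _ ≤ 24 ^ ((F k).filter (· ∈ Fr)).card * 441 ^ (21 * (Q + 1)) *
          (150 ^ (2 * Q) * (2 * N) ^ (2 * (Vt k).card) * 5 ^ (F k).card) * (GG m g).card ^ 2 := by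
          gcongr <;> norm_num
      _ = _ := by simp only [mul_assoc]
  have := prod_le_prod' (s := range (T / h + 1 + R)) fun k _ => pt k
  generalize 441 ^ (21 * (Q + 1)) * 150 ^ (2 * Q) = Z at *
  simpa only [prod_mul_distrib, prod_const, card_range, prod_pow_eq_pow_sum, ← pow_mul,
    ← mul_sum] using this

theorem fm : FMStmt := by
  classical
  intro K
  obtain ⟨C, hC⟩ : ∃ C, C = 4 * K := ⟨_, rfl⟩
  obtain ⟨Q, hQ⟩ : ∃ Q, Q = 4 * (5 * K + 2) ^ 2 := ⟨_, rfl⟩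
  obtain ⟨c, hc⟩ : ∃ c, c = (C + 1) * (2 * (2 * C + 2) ^ 5 + 1) + 1 := ⟨_, rfl⟩
  obtain ⟨h1, H1⟩ := big_h c Q C K (24 ^ 100 * (441 ^ (21 * (Q + 1)) * 150 ^ (2 * Q)) ^ 200)
  refine ⟨2 * (h1 + C + 1), fun X V _ m ev Sg g N c0 hg hB hN => ?_⟩
  obtain ⟨h, hh2, hh3⟩ : ∃ h, 2 * h ≤ g ∧ g ≤ 2 * h + 1 := ⟨g / 2, by omega, by omega⟩
  have a1 : h1 ≤ h := by omega
  have a2 : C ≤ h := by omega
  have hh : 1 ≤ h := by omega
  obtain ⟨P, hP⟩ : ∃ P, P = (c * h ^ 6) ^ (3 * Q + 1) * ((3 * C + 4) * h) ^ (K + 2) := ⟨_, rfl⟩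
  have c0' : 0 < c := by omega
  have P0 : 0 < P := hP ▸ Nat.mul_pos (Nat.pow_pos (Nat.mul_pos c0' (Nat.pow_pos hh)))
    (Nat.pow_pos (Nat.mul_pos (by omega) hh))
  set A := (GG m g).filter (fun π => ¬ NoCfg π c0 g K 100) with hA
  have ex : ∀ π : Fin 21 → V → V, ∃ (T B R : ℕ) (cl : ℕ → Fin 21) (tl : ℕ → V) (nx μ : ℕ → ℕ),
      π ∈ A → Cfg π c0 T B R cl tl nx μ ∧ R ≤ K ∧ 2 * h + 1 ≤ T ∧ 100 * B ≤ T ∧
        T ≤ C * h := fun π => by
    by_cases k : π ∈ A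
    · have := (mem_filter.1 k).2
      simp only [NoCfg, not_forall, not_lt] at this
      obtain ⟨T, B, R, cl, tl, nx, μ, k1, k2, k3, k4, k5⟩ := this
      exact ⟨T, B, R, cl, tl, nx, μ, fun _ => ⟨k4, k3, by omega, k5, k2.trans (by
        rw [hC, mul_comm 4, mul_assoc]; exact Nat.mul_le_mul_left _ (by omega))⟩⟩
    · exact ⟨0, 0, 0, fun _ => 0, fun _ => c0, id, id, fun k' => absurd k' k⟩
  choose T B R cl tl nx μ hd using ex
  have vv : ∀ π ∈ A, Valid m π := fun π k => (mem_filter.1 (mem_filter.1 k).1).2.1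
  have gg : ∀ π ∈ A, Invo π ∧ Girth π (2 * h) := fun π k =>
    ⟨valid_invo (vv π k), fun v w a b c d =>
      lt_of_le_of_lt hh2 ((mem_filter.1 (mem_filter.1 k).1).2.2 v w a b c d)⟩
  have kk : ∀ π ∈ A, T π / h + 1 + R π ≤ 5 * K + 1 ∧
      4 * (T π / h + 1 + R π + 1) ^ 2 ≤ Q := fun π k => by
    obtain ⟨-, b1, -, -, b4⟩ := hd π k
    have e1 : T π / h ≤ C := Nat.div_le_of_le_mul (by rwa [mul_comm])
    refine ⟨by omega, ?_⟩
    rw [hQ]
    exact Nat.mul_le_mul_left _ (Nat.pow_le_pow_left (by omega) _)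
  let cd : (Fin 21 → V → V) → ℕ → YY := fun π => code (T π) (tl π) (nx π) (μ π) c0
  let pc : (Fin 21 → V → V) → ℕ → Option Bool := fun π => pcode (T π) (fun v => ev (m.τ v)) (tl π)
  have c1 : (A.image cd).card ≤ (c * h ^ 6) ^ (3 * Q + 1) :=
    hc ▸ count_cd hd hh gg (fun π k => (kk π k).2)
  have c1' : (A.image pc).card ≤ ((3 * C + 4) * h) ^ (K + 2) := count_pc hB hd hh vv
  have c3 : (A.image (fun π => (cd π, pc π))).card ≤ P := by
    refine (card_le_card (t := A.image cd ×ˢ A.image pc) (forall_mem_image.2 fun π k =>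
      mem_product.2 ⟨mem_image_of_mem _ k, mem_image_of_mem _ k⟩)).trans ?_
    rw [card_product, hP]
    exact Nat.mul_le_mul c1 c1'
  have c2 : ∀ f ∈ A.image (fun π => (cd π, pc π)), (A.filter fun π => (cd π, pc π) = f).card ≤
      (GG m g).card / (8 * P) := forall_mem_image.2 fun π₀ k₀ => by
    obtain ⟨b0, b1, b2, b3, b4⟩ := hd π₀ k₀
    rw [Nat.le_div_iff_mul_le (Nat.mul_pos (by norm_num) P0), mul_comm]
    have fam : Fam m ev c0 g (T π₀) (nx π₀) (μ π₀) (rep (tl π₀)) (rt (T π₀) (tl π₀) c0)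
        (fun i => ev (m.τ (tl π₀ i))) (A.filter fun π => (cd π, pc π) = (cd π₀, pc π₀)) cl tl := by
      have e0 : ∀ π, cd π = cd π₀ → T π = T π₀ ∧ rt (T π) (tl π) c0 = rt (T π₀) (tl π₀) c0 := by
        intro π k2
        have e0 := congrFun k2 0
        simp only [cd, code, if_pos (Nat.zero_le _), Option.some.injEq, Prod.mk.injEq] at e0
        exact ⟨e0.1, e0.2.1⟩
      refine ⟨(filter_subset _ _).trans (filter_subset _ _), fun π k => ?_, fun π k i hi => ?_⟩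
      · obtain ⟨k1, k2⟩ := mem_filter.1 k
        replace k2 := (Prod.mk.inj k2).1
        have dr := (hd π k1).1.drawn
        rw [(e0 π k2).2, (e0 π k2).1] at dr
        have e : ∀ j ≤ T π₀, (j < T π₀ → nx π j = nx π₀ j ∧ μ π j = μ π₀ j) ∧
            rep (tl π) j = rep (tl π₀) j := fun j hj => by
          have e1 := congrFun k2 j
          simp only [cd, code, (e0 π k2).1, if_pos hj, Option.some.injEq, Prod.mk.injEq] at e1
          exact ⟨fun k => by simpa [k] using And.intro e1.2.2.1 e1.2.2.2.1, e1.2.2.2.2.1⟩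
        exact dr.congr (fun j hj => ((e j hj.le).1 hj).1) (fun j hj => ((e j hj.le).1 hj).2)
          fun j hj => (e j hj).2
      · obtain ⟨k2, k3⟩ := Prod.mk.inj (mem_filter.1 k).2
        have := congrFun k3 i
        simpa [pc, pcode, (e0 π k2).1, hi] using this
    have H2 := H1 h a1
    rw [← hP] at H2
    exact fibre (P := 8 * P) hB b0 b2 b3 b4 (gg _ k₀).1 (gg _ k₀).2 hh hh2 a2 (kk _ k₀).1
      (kk _ k₀).2 hN fam H2
  calc _ ≤ 8 * ((GG m g).card / (8 * P) * P) := by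
        gcongr
        exact (card_le_mul_card_image A _ c2).trans (Nat.mul_le_mul_left _ c3)
    _ = (GG m g).card / (8 * P) * (8 * P) := by ring
    _ ≤ _ := Nat.div_mul_le_self _ _

end Vale.Agent.P201
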