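import Vale.Agent.P201.Defs
import Vale.Agent.P194.Main

namespace Vale.Agent.P201

open Vale.Agent.P194

variable {S V : Type} {π : S → V → V}

theorem local2 [Nontrivial S] (hπ : Invo π) (c0 : V) {g D C K K0 q : ℕ}
    (hg : Girth π g) (hd : Diam π D) (h1 : 1 ≤ D) (h2 : D ≤ C * (g + 1))
    (hT : 17 * (3 * C * K0) ≤ K) (hb : NoCfg π c0 g K q) (w : List S) (n : ℕ)
    (hn : IsArea (AL π (3 * D)) w n) (hK : n ≤ K0) : 3 * D * n ≤ (3 + 3 * C) * q * w.length := by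
  classical
  obtain ⟨w', r, l, e⟩ := exists_red (al_ax hπ (3 * D)) _ w le_rfl
  by_cases k : w' = []
  · subst k
    have := hn.2 0 ((e 0).2 (al_ax hπ _).nil)
    obtain rfl : n = 0 := by omega
    simp
  have a := ((e n).1 hn.1).cw
  have ex : ∃ t, ∃ m, Ar (CW π) w' t m := ⟨_, _, a⟩
  obtain ⟨m, hm⟩ := Nat.find_spec ex
  have mn : ∀ t' m', Ar (CW π) w' t' m' → Nat.find ex ≤ t' := fun t' m' q =>
    Nat.find_min' ex ⟨m', q⟩
  have le := mn _ _ a
  generalize Nat.find ex = t at *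
  obtain ⟨n', cl, tl, nx, μ, c, b1, b2, b3⟩ := cfg_unrooted hπ hg c0 k r hm mn
  have t1 : t ≤ 3 * C * K0 * (g + 1) :=
    calc t ≤ 3 * D * n := le
      _ ≤ 3 * (C * (g + 1)) * K0 := by gcongr
      _ = _ := by ring
  have t2 : n' ≤ 3 * C * K0 := Nat.le_of_mul_le_mul_left (b2.trans (t1.trans_eq (mul_comm _ _)))
    (Nat.succ_pos g)
  have lt : t < q * w'.length := hb t _ _ cl tl nx μ (by nlinarith)
    (t1.trans (Nat.mul_le_mul_right _ (by omega))) (by omega) c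
  obtain ⟨m', p, q'⟩ := b3.al hπ h1 hd
  have z := hn.2 m' ((e m').2 p)
  have z1 : D * n ≤ D * m' := Nat.mul_le_mul_left _ z
  have z2 : D * n' ≤ C * (g + 1) * n' := Nat.mul_le_mul_right _ h2
  have z3 : C * ((g + 1) * n') ≤ C * t := Nat.mul_le_mul_left _ b2
  have z4 : t ≤ q * w.length := lt.le.trans (Nat.mul_le_mul_left _ l)
  have z5 : C * t ≤ C * (q * w.length) := Nat.mul_le_mul_left _ z4
  nlinarith

theorem isolated2 [Nontrivial S] (hπ : Invo π) (c0 : V) {g D C K q q' : ℕ}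
    (hg : Girth π g) (hd : Diam π D) (h1 : 1 ≤ D) (h2 : D ≤ C * (g + 1))
    (hq : ∀ w n, IsArea (AL π (3 * D)) w n → 3 * D * n ≤ q' * w.length)
    (hT : 17 * ((q' + 1) * C) ≤ K) (hb : NoCfg π c0 g K q) : NonCol π (gen π) c0 := by
  classical
  intro w hw e
  by_contra ne
  obtain ⟨p0, a1, a2, a3⟩ := hd c0 w hw
  have rv := walk_reverse hπ w c0 hw
  have cw : CW π (p0 ++ w.reverse) :=
    ⟨c0, by rw [walk_append, a2]; exact ⟨a1, rv.1⟩, by rw [run_append, a2, rv.2]⟩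
  obtain ⟨t1, n1, b1⟩ := complete hπ e
  have e0 : (p0.map (gen π)).prod = 1 := by
    have x := gen_cw cw
    have y := (b1.rev CW.rot (CW.rev hπ)).prod_one
    rwa [List.map_append, List.prod_append, y, mul_one] at x
  obtain ⟨t2, n2, b2⟩ := complete hπ e0
  obtain ⟨m, b3, -⟩ := b2.al hπ h1 hd
  obtain ⟨n0, b4⟩ := exists_area b3
  have b5 := hq p0 n0 b4
  have ex : ∃ s, ∃ p t m, Walk π c0 p ∧ run π c0 p = run π c0 w ∧ Ar (CW π) p t m ∧
      t + p.length = s := ⟨_, p0, _, _, a1, a2, b4.1.cw, rfl⟩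
  have mn : ∀ p t m, Walk π c0 p → run π c0 p = run π c0 w → Ar (CW π) p t m →
      Nat.find ex ≤ t + p.length := fun p t m x y z => Nat.find_min' ex ⟨p, t, m, x, y, z, rfl⟩
  obtain ⟨p, t, m', d1, d2, d3, d4⟩ := Nat.find_spec ex
  rw [← d4] at mn
  have le := mn _ _ _ a1 a2 b4.1.cw
  have pn : p ≠ [] := by rintro rfl; exact ne d2.symm
  have pr : Red p := by
    by_contra k
    obtain ⟨a, x, c, rfl⟩ := not_red k
    rw [walk_append] at d1
    rw [run_append] at d2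
    simp only [walk_cons, run_cons, hπ x _] at d1 d2
    have := mn (a ++ c) t m' ((walk_append _ _ _).2 ⟨d1.1, d1.2.2.2⟩) (by rw [run_append, d2])
      (d3.canc CW.rot)
    simp at this
  obtain ⟨n, cl, tl, nx, μ, c, f1, f2⟩ := cfg_rooted hπ hg c0 pn pr d1 d3
    (fun p' t' m'' x y z => mn p' t' m'' x (y.trans d2) z)
  have u1 : q' * p0.length ≤ q' * D := Nat.mul_le_mul_left _ a3
  have u2 : t + p.length ≤ (q' + 1) * C * (g + 1) :=
    calc _ ≤ (q' + 1) * D := by rw [add_mul]; omega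
      _ ≤ (q' + 1) * (C * (g + 1)) := by gcongr
      _ = _ := by ring
  have u3 : n ≤ (q' + 1) * C := Nat.le_of_mul_le_mul_left
    (f2.trans ((Nat.le_add_right _ _).trans (u2.trans_eq (mul_comm _ _)))) (Nat.succ_pos g)
  have := hb _ 0 _ cl tl nx μ (by nlinarith)
    (u2.trans (Nat.mul_le_mul_right _ (by omega))) (by omega) c
  omega

theorem lin : LinStmt := by
  intro C q
  obtain ⟨K0, hK⟩ := l2g ((3 + 3 * C) * q)
  refine ⟨2 * ((3 + 3 * C) * q), 17 * (3 * C * K0) + 17 * ((2 * ((3 + 3 * C) * q) + 1) * C),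
    fun S V _ π c0 g D _ hπ hg hd h1 h2 hb => ?_⟩
  have gl := hK _ _ (3 * D) (by omega) (al_ax hπ (3 * D))
    (local2 hπ c0 hg hd h1 h2 (Nat.le_add_right _ _) hb)
  exact ⟨gl, isolated2 hπ c0 hg hd h1 h2 gl (Nat.le_add_left _ _) hb⟩

end Vale.Agent.P201
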