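import Vale.Agent.P201.FM
import Vale.Agent.P201.Lin
import Vale.Agent.P201.Design
import Vale.Agent.P201.Diam

namespace Vale.Agent.P201

open Vale.Agent.P194

variable {S X V : Type}

theorem NoCfg.mono {π : S → V → V} {c0 : V} {g K K' q : ℕ} (h : NoCfg π c0 g K q) (hK : K' ≤ K) :
    NoCfg π c0 g K' q := fun T B R cl tl nx μ a b c d =>
  h T B R cl tl nx μ a (b.trans (Nat.mul_le_mul_right _ hK)) (c.trans hK) d

theorem walk_par [Fintype V] {m : Model S X V} {ev : X → Bool} {Sg : Finset (S × S)} {N : ℕ}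
    (hB : Bip m ev Sg N) {π : S → V → V} (h : Valid m π) (w : List S) : ∀ v, Walk π v w →
    (ev (m.τ (run π v w)) = ev (m.τ v) ↔ Even w.length) := by
  induction w with
  | nil => simp
  | cons s w ih =>
    intro v k
    have a := ih _ k.2
    rw [(par_edge hB h rfl k.1).1] at a
    rw [run_cons, List.length_cons, Nat.even_add_one, ← a]
    cases ev (m.τ v) <;> cases ev (m.τ (run π (π s v) w)) <;> simp

theorem exists_eps {π : S → V → V} (h : ∀ w, CW π w → Even w.length) :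
    ∃ ε : Grp π →* Multiplicative (ZMod 2), ∀ s, ε (gen π s) = Multiplicative.ofAdd 1 := by
  have two : (Multiplicative.ofAdd (1 : ZMod 2)) * Multiplicative.ofAdd 1 = 1 := by decide
  have hr : ∀ r ∈ rels π,
      FreeGroup.lift (fun _ : S => Multiplicative.ofAdd (1 : ZMod 2)) r = 1 := by
    rintro r (⟨s, rfl⟩ | ⟨l, hl, rfl⟩)
    · simpa using two
    · obtain ⟨k, hk⟩ := h l hl
      rw [map_list_prod, List.map_map]
      have : (FreeGroup.lift (fun _ : S => Multiplicative.ofAdd (1 : ZMod 2))) ∘ FreeGroup.of =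
          fun _ => Multiplicative.ofAdd (1 : ZMod 2) := by ext1 s; simp
      rw [this, List.map_const', List.prod_replicate, hk, pow_add, ← mul_pow, two, one_pow]
  exact ⟨PresentedGroup.toGroup hr, fun s => by simp [gen]⟩

theorem main (hT : TorsStmt) : ∃ (G : Type) (_ : Group G), (∀ x : G, IsOfFinOrder x → x = 1) ∧
    ∃ α β : MonoidAlgebra (ZMod 2) G, α ≠ 0 ∧ β ≠ 0 ∧ α * β = 0 := by
  classical
  obtain ⟨C0, hD⟩ := diam2
  obtain ⟨q', K1, hL⟩ := lin (41 * C0 + 1) 100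
  obtain ⟨K2, hT⟩ := hT (41 * C0 + 1) 100 q'
  obtain ⟨g0, hF⟩ := fm (K1 + K2)
  obtain ⟨g, g1, g2⟩ : ∃ g, g0 ≤ g ∧ 1 ≤ g := ⟨g0 + 1, by omega, by omega⟩
  obtain ⟨N, hN⟩ : ∃ N, N = 1000 * 22 ^ (g + 2) := ⟨_, rfl⟩
  have pos : 1 ≤ 22 ^ (g + 2) := Nat.one_le_pow _ _ (by norm_num)
  obtain ⟨V, _, m, Sg, a0, b0, v1, v2, v3⟩ := des N (by omega)
  have e1 := nonempty_gg _ _ _ m g _ v1 v2.big
    (by rw [Fintype.card_fin, show 21 + 1 = 22 from rfl]; omega)
  have e2 := hD _ _ _ m _ Sg g N (5 * g + 20) v2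
    (by rw [Fintype.card_fin, show 21 + 1 = 22 from rfl]; omega) (by
      have : 22 ^ (g + 2) ≤ 32 ^ (g + 2) := Nat.pow_le_pow_left (by norm_num) _
      have e : 2 ^ (5 * g + 20) = 1024 * 32 ^ (g + 2) := by
        rw [show (1024 : ℕ) = 2 ^ 10 by norm_num, show (32 : ℕ) = 2 ^ 5 by norm_num, ← pow_mul,
          ← pow_add]; congr 1; omega
      omega)
  have e3 := hF _ _ m _ Sg g N a0 g1 v2 hN.ge
  have e4 := hF _ _ m _ Sg g N b0 g1 v2 hN.ge
  obtain ⟨D, hD'⟩ : ∃ D, D = C0 * (2 * (5 * g + 20) + 1) := ⟨_, rfl⟩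
  rw [← hD'] at e2
  have ex : ∃ π ∈ GG m g, Diam π D ∧ NoCfg π a0 g (K1 + K2) 100 ∧ NoCfg π b0 g (K1 + K2) 100 := by
    by_contra k
    have sub : GG m g ⊆ (GG m g).filter (fun π => ¬ Diam π D) ∪
        ((GG m g).filter (fun π => ¬ NoCfg π a0 g (K1 + K2) 100) ∪
          (GG m g).filter (fun π => ¬ NoCfg π b0 g (K1 + K2) 100)) := by
      intro π hπ
      simp only [Finset.mem_union, Finset.mem_filter]
      by_contra c
      simp only [hπ, true_and, not_or, not_not] at c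
      exact k ⟨π, hπ, c⟩
    have := (Finset.card_le_card sub).trans ((Finset.card_union_le _ _).trans
      (Nat.add_le_add_left (Finset.card_union_le _ _) _))
    have := e1.card_pos
    omega
  obtain ⟨π, hm, hd, ha, hb⟩ := ex
  obtain ⟨hv, hg⟩ : Valid m π ∧ Girth π g := by simpa [GG] using hm
  have hπ := valid_invo hv
  have hd' : Diam π (D + 1) := fun v w k => by
    obtain ⟨w', a, b, c⟩ := hd v w k
    exact ⟨w', a, b, by omega⟩
  have d2 : D + 1 ≤ (41 * C0 + 1) * (g + 1) := by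
    have : D ≤ C0 * (41 * (g + 1)) := hD' ▸ Nat.mul_le_mul_left _ (by omega)
    nlinarith
  obtain ⟨l1, l2⟩ := hL _ _ π a0 g _ g2 hπ hg hd' (by omega) d2 (ha.mono (by omega))
  obtain ⟨-, l3⟩ := hL _ _ π b0 g _ g2 hπ hg hd' (by omega) d2 (hb.mono (by omega))
  obtain ⟨ε, hε⟩ := exists_eps (π := π) fun w ⟨v, a, b⟩ => (walk_par v2 hv w v a).1 (by rw [b])
  have t := hT _ _ π a0 g _ ε g2 hπ hg hd' (by omega) d2 (ha.mono (by omega)) l1
    (fun s => by rw [hε]; decide)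
  refine ⟨ε.ker, inferInstance, fun x hx => Subtype.ext (t x x.2 (ε.ker.subtype.isOfFinOrder hx)),
    v3 π hv (Grp π) (gen π) ε.ker gen_sq (fun v w a b => gen_cw ⟨v, a, b⟩) (fun s t => ?_) l2 l3⟩
  rw [MonoidHom.mem_ker, map_mul, hε, hε]
  decide

end Vale.Agent.P201
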