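import Vale.Agent.P201.Col
import Vale.Agent.P194.Switch

namespace Vale.Agent.P201

open Vale.Agent.P194 Finset

variable {X V : Type}

theorem par_edge {S : Type} [Fintype V] {m : Model S X V} {ev : X → Bool} {Sg : Finset (S × S)}
    {N : ℕ} (hB : Bip m ev Sg N) {π : S → V → V} (h : Valid m π) {s : S} {u v : V}
    (e : π s u = v) (ne : v ≠ u) : ev (m.τ v) = !ev (m.τ u) ∧ s ∈ m.L u ∧ s ∈ m.L v := by
  have a : s ∈ m.L u := valid_mem h (by rw [e]; exact ne)
  refine ⟨by rw [← e, ((h s u).2.2 a).2, hB.flip], a, valid_mem h ?_⟩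
  rw [← e, (h s u).1, e]; exact ne.symm

theorem prod_k {Vt Ir : Finset ℕ} {pr : ℕ → Bool} {N M f : ℕ} (hM : M ≤ 300 * N)
    (hf : 2 * (Vt.filter (fun i => i ∉ Ir ∧ pr i = false)).card ≤ f) :
    (∏ i ∈ Vt, (if i ∈ Ir then M else if pr i = true then 2 * N else 10 * N)) ^ 2 ≤
      150 ^ (2 * Ir.card) * (2 * N) ^ (2 * Vt.card) * 5 ^ f := by
  have h1 : ∏ i ∈ Vt, (if i ∈ Ir then M else if pr i = true then 2 * N else 10 * N) ≤
      ∏ i ∈ Vt, (2 * N * ((if i ∈ Ir then 150 else 1) *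
        (if i ∉ Ir ∧ pr i = false then 5 else 1))) := by
    refine prod_le_prod' fun i _ => ?_
    by_cases a : i ∈ Ir <;> cases b : pr i <;> simp [a] <;> omega
  rw [prod_mul_distrib, prod_const, prod_mul_distrib, prod_ite (fun _ => 150),
    prod_ite (fun _ => 5)] at h1
  simp only [prod_const, one_pow, mul_one] at h1
  have h2 : (Vt.filter (· ∈ Ir)).card ≤ Ir.card := card_le_card fun i hi => (mem_filter.1 hi).2
  calc _ ≤ ((2 * N) ^ Vt.card * (150 ^ Ir.card *
        5 ^ (Vt.filter (fun i => i ∉ Ir ∧ pr i = false)).card)) ^ 2 := by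
        refine Nat.pow_le_pow_left (h1.trans ?_) 2
        gcongr; norm_num
    _ = 150 ^ (2 * Ir.card) * (2 * N) ^ (2 * Vt.card) *
        5 ^ (2 * (Vt.filter (fun i => i ∉ Ir ∧ pr i = false)).card) := by ring
    _ ≤ _ := by gcongr; norm_num

/-- a family of graphs with drawings of one shape -/
structure Fam [Fintype V] (m : Model (Fin 21) X V) (ev : X → Bool) (c0 : V) (g T : ℕ)
    (nx μ rp : ℕ → ℕ) (i0 : ℕ) (pr : ℕ → Bool) (A : Finset (Fin 21 → V → V))
    (cl : (Fin 21 → V → V) → ℕ → Fin 21) (tl : (Fin 21 → V → V) → ℕ → V) : Prop where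
  sub : A ⊆ GG m g
  dr : ∀ π ∈ A, Drawn π c0 T nx μ rp i0 (cl π) (tl π)
  par : ∀ π ∈ A, ∀ i ≤ T, ev (m.τ (tl π i)) = pr i

section
variable [Fintype V] {m : Model (Fin 21) X V} {ev : X → Bool} {Sg : Finset (Fin 21 × Fin 21)}
  {c0 : V} {g N Ns T : ℕ} {nx μ rp : ℕ → ℕ} {i0 : ℕ} {F Fr Vt Ir : Finset ℕ} {ρ : ℕ → ℕ}
  {pr : ℕ → Bool} {A : Finset (Fin 21 → V → V)} {cl : (Fin 21 → V → V) → ℕ → Fin 21}
  {tl : (Fin 21 → V → V) → ℕ → V}

theorem Fam.gg (f : Fam m ev c0 g T nx μ rp i0 pr A cl tl) : ∀ π ∈ A, Valid m π ∧ Girth π g :=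
  fun π h => by simpa [GG] using f.sub h

theorem Fam.edge (f : Fam m ev c0 g T nx μ rp i0 pr A cl tl) (hB : Bip m ev Sg N)
    (c : Cert T nx μ rp i0 F Fr Vt Ir ρ) : ∀ x ∈ A, ∀ j ∈ F,
    ev (m.τ (tl x (nx j))) = !ev (m.τ (tl x j)) ∧
      cl x j ∈ m.L (tl x j) ∧ cl x j ∈ m.L (tl x (nx j)) := fun x hx j hj =>
  par_edge hB (f.gg x hx).1 ((f.dr x hx).step j (c.F_lt j hj)).1
    ((f.dr x hx).step j (c.F_lt j hj)).2

theorem Fam.inc (f : Fam m ev c0 g T nx μ rp i0 pr A cl tl)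
    (c : Cert T nx μ rp i0 F Fr Vt Ir ρ) : ∀ x ∈ A, ∀ i ≤ T, ∀ j ∈ F,
    (rp i = rp j ∨ rp i = rp (nx j)) ↔
      (tl x i = tl x j ∨ tl x i = tl x (nx j)) := fun x hx i hi j hj => by
  rw [(f.dr x hx).ker _ hi _ (c.F_lt j hj).le,
    (f.dr x hx).ker _ hi _ ((f.dr x hx).nx_le j (c.F_lt j hj))]

theorem Fam.dif (f : Fam m ev c0 g T nx μ rp i0 pr A cl tl)
    (c : Cert T nx μ rp i0 F Fr Vt Ir ρ) : ∀ x ∈ A, ∀ j ∈ F, ∀ j' ∈ F, ∀ v,
    (v = tl x j ∨ v = tl x (nx j)) → (v = tl x j' ∨ v = tl x (nx j')) → cl x j = cl x j' →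
    j = j' := fun x hx j hj j' hj' _ a b e =>
  c.F_inj j hj j' hj' ((f.dr x hx).se_of_col (valid_invo (f.gg x hx).1) (c.F_lt j hj)
    (c.F_lt j' hj') e a b)

theorem Fam.root (fm : Fam m ev c0 g T nx μ rp i0 pr A cl tl) (h2 : 2 ≤ g)
    (c : Cert T nx μ rp i0 F Fr Vt Ir ρ) :
    ∀ n, ∀ j ∈ F, ρ j < n → ∃ f ∈ F.filter (· ∈ Fr), ∀ x ∈ A, cl x j = cl x f := by
  intro n
  induction n with
  | zero => intro j _ h; omega
  | succ n ih =>
    intro j hj h
    by_cases fr : j ∈ Fr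
    · exact ⟨j, mem_filter.2 ⟨hj, fr⟩, fun _ _ => rfl⟩
    · obtain ⟨j1, a1, a2, a3, j', a4, a5, a6⟩ := c.par j hj fr
      obtain ⟨f, f1, f2⟩ := ih j' a4 (by omega)
      refine ⟨f, f1, fun x hx => ?_⟩
      have d := fm.dr x hx
      have iv := valid_invo (fm.gg x hx).1
      rw [← f2 x hx, d.se_col iv (fm.gg x hx).2 h2 (c.F_lt j hj) a1 a3, ← d.mu j1 a1 a2,
        d.se_col iv (fm.gg x hx).2 h2 (c.F_lt j' a4) a2 a5]

omit [Fintype V] in
theorem cert_two (c : Cert T nx μ rp i0 F Fr Vt Ir ρ) : ∀ i ∈ Vt, i ∉ Ir → ∃ j ∈ F, ∃ j' ∈ F,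
    j ≠ j' ∧ (rp i = rp j ∨ rp i = rp (nx j)) ∧ (rp i = rp j' ∨ rp i = rp (nx j')) :=
  fun i hi ir => by
    obtain ⟨j, hj, j', hj', ne, ic, u, -, en, -⟩ := c.reg i hi ir
    exact ⟨j, hj, j', hj', ne, en.imp (·.1) (·.1), ic⟩

open Classical in
theorem Fam.exc (fm : Fam m ev c0 g T nx μ rp i0 pr A cl tl) (hB : Bip m ev Sg N)
    (c : Cert T nx μ rp i0 F Fr Vt Ir ρ) {x1 : Fin 21 → V → V} (hx1 : x1 ∈ A) :
    (F.filter (fun j => ¬ ∃ i ∈ Vt, i ∉ Ir ∧ pr i = false ∧
      (rp i = rp j ∨ rp i = rp (nx j)))).card ≤ 21 * (Ir.card + 1) := by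
  have hD := fm.dr
  have hp := fm.par
  have hG := fm.gg
  have edge := fm.edge hB c
  have inc := fm.inc c
  have dif := fm.dif c
  set Ex := F.filter (fun j => ¬ ∃ i ∈ Vt, i ∉ Ir ∧ pr i = false ∧
    (rp i = rp j ∨ rp i = rp (nx j)))
  have : Ex.card ≤ (univ ×ˢ insert c0 (Ir.image (tl x1)) : Finset (Fin 21 × V)).card := by
    refine card_le_card_of_injOn (fun j => (cl x1 j,
      if ev (m.τ (tl x1 j)) = true then tl x1 (nx j) else tl x1 j)) (fun j hj => ?_) ?_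
    · obtain ⟨hj, hn⟩ := mem_filter.1 hj
      have jT := c.F_lt j hj
      have lT := (hD x1 hx1).nx_le j jT
      have key : ∀ u ≤ T, (u = j ∨ u = nx j) → ev (m.τ (tl x1 u)) = false →
          tl x1 u ∈ insert c0 (Ir.image (tl x1)) := by
        intro u hu hu' hev
        have : (∃ i ∈ Vt, rp i = rp u) ∨ rp u = i0 := by
          rcases hu' with rfl | rfl
          · exact (c.ends _ hj).1
          · exact (c.ends _ hj).2
        rcases this with ⟨i, hi, e⟩ | e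
        · have e' := ((hD x1 hx1).ker _ (c.V_le i hi) _ hu).2 e
          refine mem_insert_of_mem (mem_image.2 ⟨i, ?_, e'⟩)
          by_contra ir
          refine hn ⟨i, hi, ir, by rw [← hp x1 hx1 i (c.V_le i hi), e', hev], ?_⟩
          rcases hu' with rfl | rfl <;> simp [e]
        · rw [((hD x1 hx1).root u hu).2 e]; exact mem_insert_self _ _
      simp only [coe_product, Set.mem_prod, mem_coe, mem_univ, true_and]
      split_ifs with k
      · exact key _ lT (Or.inr rfl) (by rw [(edge x1 hx1 j hj).1, k]; rfl)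
      · exact key _ jT.le (Or.inl rfl) (by simpa using k)
    · intro j hj j' hj' e
      simp only [Prod.mk.injEq] at e
      refine dif x1 hx1 j (mem_filter.1 hj).1 j' (mem_filter.1 hj').1
        (if ev (m.τ (tl x1 j)) = true then tl x1 (nx j) else tl x1 j) ?_ ?_ e.1
      · split_ifs <;> simp
      · rw [e.2]; split_ifs <;> simp
  rw [card_product, card_univ, Fintype.card_fin] at this
  exact this.trans (Nat.mul_le_mul_left _ ((card_insert_le _ _).trans
    (Nat.succ_le_succ card_image_le)))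

open Classical in
theorem Fam.cols (fm : Fam m ev c0 g T nx μ rp i0 pr A cl tl) (h2 : 2 ≤ g) (hB : Bip m ev Sg N)
    (c : Cert T nx μ rp i0 F Fr Vt Ir ρ) {x1 : Fin 21 → V → V} (hx1 : x1 ∈ A) :
    (A.image (fun x j => if j ∈ F.filter (· ∈ Fr) then cl x j else 0)).card ^ 2 ≤
      24 ^ (F.filter (· ∈ Fr)).card * 441 ^ (21 * (Ir.card + 1)) := by
  have hD := fm.dr
  have hp := fm.par
  have hG := fm.gg
  have edge := fm.edge hB c
  have inc := fm.inc c
  have dif := fm.dif c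
  have root := fm.root h2 c
  have two := cert_two c
  have cEx := fm.exc hB c hx1
  set Ex := F.filter (fun j => ¬ ∃ i ∈ Vt, i ∉ Ir ∧ pr i = false ∧
    (rp i = rp j ∨ rp i = rp (nx j)))
  set cr : (Fin 21 → V → V) → ℕ → Fin 21 := fun x j => if j ∈ F.filter (· ∈ Fr) then cl x j else 0
  have cc := col_count Sg hB.sg_card (fun s => by convert hB.sg_fib s) Ex _ (F.filter (· ∈ Fr)) (A.image cr) le_rfl
    (by
      intro φ hφ ψ hψ i hi
      obtain ⟨x, -, rfl⟩ := mem_image.1 hφ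
      obtain ⟨y, -, rfl⟩ := mem_image.1 hψ
      simp only [cr, if_neg hi])
    (by
      intro f hf hex
      have fF := (mem_filter.1 hf).1
      obtain ⟨i, hi, ir, pi, ic⟩ : ∃ i ∈ Vt, i ∉ Ir ∧ pr i = false ∧
          (rp i = rp f ∨ rp i = rp (nx f)) := by
        by_contra k; exact hex (mem_filter.2 ⟨fF, k⟩)
      obtain ⟨j, hj, ne, ic'⟩ : ∃ j ∈ F, j ≠ f ∧ (rp i = rp j ∨ rp i = rp (nx j)) := by
        obtain ⟨j, hj, j', hj', ne, a, b⟩ := two i hi ir
        by_cases k : j = f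
        · exact ⟨j', hj', fun e => ne (k.trans e.symm), b⟩
        · exact ⟨j, hj, k, a⟩
      obtain ⟨f', f1, f2⟩ := root _ j hj (Nat.lt_succ_self _)
      have nc : ∀ x ∈ A, cl x j ≠ cl x f := fun x hx e => ne (dif x hx j hj f fF _
        ((inc x hx i (c.V_le i hi) j hj).1 ic') ((inc x hx i (c.V_le i hi) f fF).1 ic) e)
      refine ⟨f', fun e => nc x1 hx1 (by rw [f2 x1 hx1, e]), fun φ hφ => ?_⟩
      obtain ⟨x, hx, rfl⟩ := mem_image.1 hφ
      simp only [cr, if_pos hf, if_pos f1]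
      rw [← f2 x hx]
      have mem : ∀ j ∈ F, (rp i = rp j ∨ rp i = rp (nx j)) → cl x j ∈ m.L (tl x i) := by
        intro j hj k
        rcases (inc x hx i (c.V_le i hi) j hj).1 k with e | e <;> rw [e]
        · exact (edge x hx j hj).2.1
        · exact (edge x hx j hj).2.2
      exact hB.sg _ _ _ (by rw [hp x hx i (c.V_le i hi), pi]) (mem j hj ic') (mem f fF ic)
        (nc x hx))
  exact cc.trans (Nat.mul_le_mul_left _ (by
    rw [Fintype.card_fin]
    exact Nat.pow_le_pow_right (by norm_num) ((card_le_card inter_subset_right).trans cEx)))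

theorem Fam.odd (fm : Fam m ev c0 g T nx μ rp i0 pr A cl tl) (hB : Bip m ev Sg N)
    (c : Cert T nx μ rp i0 F Fr Vt Ir ρ) (vinj : ∀ i ∈ Vt, ∀ i' ∈ Vt, rp i = rp i' → i = i')
    {x1 : Fin 21 → V → V} (hx1 : x1 ∈ A) :
    2 * (Vt.filter (fun i => i ∉ Ir ∧ pr i = false)).card ≤ F.card := by
  have hD := fm.dr
  have hp := fm.par
  have hG := fm.gg
  have edge := fm.edge hB c
  have inc := fm.inc c
  have dif := fm.dif c
  have two := cert_two c
  set Bo := Vt.filter (fun i => i ∉ Ir ∧ pr i = false)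
  have h1 := card_biUnion (s := Bo)
    (t := fun i => F.filter (fun j => rp i = rp j ∨ rp i = rp (nx j))) (by
      intro i hi i' hi' ne
      refine disjoint_left.2 fun j a b => ne ?_
      obtain ⟨hi, -, p1⟩ := mem_filter.1 hi
      obtain ⟨hi', -, p2⟩ := mem_filter.1 hi'
      obtain ⟨hj, a⟩ := mem_filter.1 a
      rw [← hp x1 hx1 _ (c.V_le _ hi)] at p1
      rw [← hp x1 hx1 _ (c.V_le _ hi')] at p2
      have e := (edge x1 hx1 j hj).1
      refine vinj i hi i' hi' (((hD x1 hx1).ker _ (c.V_le _ hi) _ (c.V_le _ hi')).1 ?_)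
      rcases (inc x1 hx1 i (c.V_le _ hi) j hj).1 a with a | a <;>
        rcases (inc x1 hx1 i' (c.V_le _ hi') j hj).1 (mem_filter.1 b).2 with b | b
      · rw [a, b]
      · rw [← a, ← b, p1, p2] at e; simp at e
      · rw [← a, ← b, p1, p2] at e; simp at e
      · rw [a, b])
  have h3 := card_nsmul_le_sum Bo
    (fun i => (F.filter (fun j => rp i = rp j ∨ rp i = rp (nx j))).card) 2 (fun i hi => by
      obtain ⟨hi, ir, -⟩ := mem_filter.1 hi
      obtain ⟨j, hj, j', hj', ne, a, b⟩ := two i hi ir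
      exact one_lt_card.2 ⟨j, mem_filter.2 ⟨hj, a⟩, j', mem_filter.2 ⟨hj', b⟩, ne⟩)
  rw [← h1, smul_eq_mul, mul_comm] at h3
  exact h3.trans (card_le_card (biUnion_subset.2 fun i _ => filter_subset _ _))

open Classical in
theorem Fam.verts (fm : Fam m ev c0 g T nx μ rp i0 pr A cl tl) (hB : Bip m ev Sg N)
    (c : Cert T nx μ rp i0 F Fr Vt Ir ρ)
    (same : ∀ x ∈ A, ∀ x' ∈ A, ∀ j ∈ F, cl x j = cl x' j) :
    (A.image (fun x j => if j ∈ Vt then some (tl x j) else none)).card ≤ ∏ i ∈ Vt,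
      (if i ∈ Ir then Fintype.card V else if pr i = true then 2 * N else 10 * N) := by
  have hD := fm.dr
  have hp := fm.par
  have hG := fm.gg
  have edge := fm.edge hB c
  have inc := fm.inc c
  have dif := fm.dif c
  exact count_seq' A tl id _ Vt (by
    intro i hi' x0 hx0
    by_cases ir : i ∈ Ir
    · simp only [if_pos ir]
      exact ⟨univ, by simp, fun x _ _ => mem_univ _⟩
    · simp only [if_neg ir]
      obtain ⟨j, hj, j', hj', ne, ic, u, hu, en, prr⟩ := c.reg i hi' ir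
      have iT := c.V_le i hi'
      have jT := c.F_lt j hj
      have facts : ∀ x ∈ A, cl x j ∈ m.L (tl x i) ∧ cl x j' ∈ m.L (tl x i) ∧
          m.τ (tl x i) = m.act (cl x j) (m.τ (tl x u)) ∧ cl x j ≠ cl x j' := by
        intro x hx
        have d := hD x hx
        have vl := (hG x hx).1
        have iv := valid_invo vl
        have l1 := d.nx_le j jT
        have ic2 := (inc x hx i iT j' hj').1 ic
        rw [← d.ker _ iT _ jT.le, ← d.ker _ iT _ l1, ← d.ker _ hu _ jT.le,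
          ← d.ker _ hu _ l1] at en
        obtain ⟨a, b⟩ := d.step j jT
        have e1 : x (cl x j) (tl x u) = tl x i ∧ tl x i ≠ tl x u := by
          rcases en with ⟨e1, e2⟩ | ⟨e1, e2⟩
          · exact ⟨by rw [e1, e2, ← a, iv], by rw [e1, e2]; exact b.symm⟩
          · exact ⟨by rw [e1, e2, a], by rw [e1, e2]; exact b⟩
        obtain ⟨-, m1, m2⟩ := par_edge hB vl e1.1 e1.2
        refine ⟨m2, ?_, by rw [← e1.1]; exact ((vl _ _).2.2 m1).2,
          fun e => ne (dif x hx j hj j' hj' (tl x i) (by tauto) ic2 e)⟩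
        rcases ic2 with e | e <;> rw [e]
        · exact (edge x hx j' hj').2.1
        · exact (edge x hx j' hj').2.2
      obtain ⟨-, -, g3, g4⟩ := facts x0 hx0
      refine ⟨univ.filter (fun v => cl x0 j ∈ m.L v ∧
        cl x0 j' ∈ m.L v ∧ m.τ v = m.act (cl x0 j) (m.τ (tl x0 u))), ?_, fun x hx1 hx2 => ?_⟩
      · split_ifs with p
        · convert hB.fewE _ _ (m.act (cl x0 j) (m.τ (tl x0 u))) g4 (by rw [← g3, hp x0 hx0 i iT, p])
        · convert hB.fewO _ _ (m.act (cl x0 j) (m.τ (tl x0 u))) g4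
      have k2 : tl x u = tl x0 u := by
        rcases prr with e | ⟨u', hu', e, lt⟩
        · rw [((hD x hx1).root u hu).2 e, ((hD x0 hx0).root u hu).2 e]
        · rw [← ((hD x hx1).ker _ (c.V_le _ hu') _ hu).2 e, hx2 u' hu' lt,
            ((hD x0 hx0).ker _ (c.V_le _ hu') _ hu).2 e]
      obtain ⟨f1, f2, f3, -⟩ := facts x hx1
      rw [same x hx1 x0 hx0 j hj] at f1 f3
      rw [same x hx1 x0 hx0 j' hj'] at f2
      rw [k2] at f3
      simp [f1, f2, f3])

open Classical in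
theorem Fam.fib (fm : Fam m ev c0 g T nx μ rp i0 pr A cl tl) (hB : Bip m ev Sg N)
    (c : Cert T nx μ rp i0 F Fr Vt Ir ρ) (hN : Ns + 2 * 22 ^ (g + 2) + 2 * F.card ≤ 10 * N)
    (same : ∀ x ∈ A, ∀ x' ∈ A, ∀ j ∈ F, cl x j = cl x' j) :
    A.card * Ns ^ F.card ≤ (∏ i ∈ Vt,
      (if i ∈ Ir then Fintype.card V else if pr i = true then 2 * N else 10 * N)) *
        (GG m g).card := by
  have hD := fm.dr
  have dif := fm.dif c
  have cnt := fm.verts hB c same
  set rs : (Fin 21 → V → V) → ℕ → Option V := fun x j => if j ∈ Vt then some (tl x j) else none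
  rw [card_eq_sum_card_image rs A, sum_mul]
  refine le_trans (sum_le_card_nsmul _ _ (GG m g).card ?_) (Nat.mul_le_mul_right _ cnt)
  intro z hz
  obtain ⟨x0, hx0, rfl⟩ := mem_image.1 hz
  have d0 := hD x0 hx0
  let E : Finset (V × Fin 21 × V) := F.image (fun j => (tl x0 j, cl x0 j, tl x0 (nx j)))
  have cE : E.card = F.card := card_image_of_injOn (fun j hj j' hj' e => by
    simp only [Prod.mk.injEq] at e
    exact dif x0 hx0 j hj j' hj' _ (Or.inl rfl) (Or.inl e.1) e.2.1)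
  have sE : Sep E := by
    constructor
    · intro e he
      obtain ⟨j, hj, rfl⟩ := mem_image.1 he
      exact (d0.step j (c.F_lt j hj)).2.symm
    · intro e he e' he' ne ec
      obtain ⟨j, hj, rfl⟩ := mem_image.1 he
      obtain ⟨j', hj', rfl⟩ := mem_image.1 he'
      have : ∀ v, v = tl x0 j → (v = tl x0 j' ∨ v = tl x0 (nx j')) → False := fun v a b =>
        ne (by rw [dif x0 hx0 j hj j' hj' v (Or.inl a) b ec])
      exact ⟨fun e => this _ rfl (Or.inl e), fun e => this _ rfl (Or.inr e)⟩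
  have prb := prob_has (Fin 21) X V m g (10 * N) Ns E hB.big sE (by
    rw [cE, Fintype.card_fin]; exact hN)
  rw [cE] at prb
  refine le_trans (Nat.mul_le_mul_right _ (card_le_card ?_)) prb
  intro x hx
  rw [mem_filter] at hx ⊢
  refine ⟨fm.sub hx.1, fun e he => ?_⟩
  obtain ⟨j, hj, rfl⟩ := mem_image.1 he
  have d := hD x hx.1
  have jT := c.F_lt j hj
  have k2 : ∀ u ≤ T, ((∃ i ∈ Vt, rp i = rp u) ∨ rp u = i0) → tl x u = tl x0 u := by
    rintro u hu (⟨i, hi, e⟩ | e)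
    · have := congrFun hx.2 i
      have k : tl x i = tl x0 i := by simpa [rs, hi] using this
      rw [← (d.ker _ (c.V_le _ hi) _ hu).2 e, k, (d0.ker _ (c.V_le _ hi) _ hu).2 e]
    · rw [(d.root u hu).2 e, (d0.root u hu).2 e]
  show x (cl x0 j) (tl x0 j) = tl x0 (nx j)
  rw [← same x hx.1 x0 hx0 j hj, ← k2 j jT.le (c.ends j hj).1,
    ← k2 _ (d.nx_le j jT) (c.ends j hj).2]
  exact (d.step j jT).1

open Classical in
theorem pattern2 (fm : Fam m ev c0 g T nx μ rp i0 pr A cl tl) (h2 : 2 ≤ g) (hB : Bip m ev Sg N)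
    (c0 : Cert T nx μ rp i0 F Fr Vt Ir ρ) (hN : Ns + 2 * 22 ^ (g + 2) + 2 * F.card ≤ 10 * N) :
    (A.card * Ns ^ F.card) ^ 2 ≤ 24 ^ (F.filter (· ∈ Fr)).card * 441 ^ (21 * (Ir.card + 1)) *
      (150 ^ (2 * Ir.card) * (2 * N) ^ (2 * Vt.card) * 5 ^ F.card) * (GG m g).card ^ 2 := by
  obtain ⟨Vt', hVt, c, vinj⟩ := cert_dedup c0
  rcases A.eq_empty_or_nonempty with rfl | ⟨x1, hx1⟩
  · simp
  have N1 : 1 ≤ N := by
    have : 0 < 22 ^ (g + 2) := by positivity
    omega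
  have cc := fm.cols h2 hB c hx1
  have pk := prod_k hB.card (fm.odd hB c vinj hx1)
  set cr : (Fin 21 → V → V) → ℕ → Fin 21 := fun x j => if j ∈ F.filter (· ∈ Fr) then cl x j else 0
  set P := ∏ i ∈ Vt', (if i ∈ Ir then Fintype.card V else if pr i = true then 2 * N else 10 * N)
  have pk' : P ^ 2 ≤ 150 ^ (2 * Ir.card) * (2 * N) ^ (2 * Vt.card) * 5 ^ F.card := by
    refine pk.trans ?_
    have := card_le_card hVt
    gcongr
    omega
  have fib : ∀ y ∈ A.image cr, (A.filter (fun x => cr x = y)).card * Ns ^ F.card ≤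
      P * (GG m g).card := by
    intro y _
    have sA : ∀ x ∈ A.filter (fun x => cr x = y), x ∈ A := fun x hx => (mem_filter.1 hx).1
    refine Fam.fib (cl := cl) (tl := tl) ⟨fun x hx => fm.sub (sA x hx), fun x hx => fm.dr x (sA x hx),
      fun x hx => fm.par x (sA x hx)⟩ hB c hN fun x hx x' hx' j hj => ?_
    obtain ⟨f, f1, f2⟩ := fm.root h2 c _ j hj (Nat.lt_succ_self _)
    have := congrFun ((mem_filter.1 hx).2.trans (mem_filter.1 hx').2.symm) f
    simp only [cr, if_pos f1] at this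
    rw [f2 x (sA x hx), f2 x' (sA x' hx'), this]
  have tot : A.card * Ns ^ F.card ≤ (A.image cr).card * (P * (GG m g).card) := by
    rw [card_eq_sum_card_image cr A, sum_mul]
    exact sum_le_card_nsmul _ _ _ fib
  calc _ ≤ ((A.image cr).card * (P * (GG m g).card)) ^ 2 := by gcongr
    _ = (A.image cr).card ^ 2 * P ^ 2 * (GG m g).card ^ 2 := by ring
    _ ≤ _ := by gcongr

end

end Vale.Agent.P201
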