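import Vale.Agent.P194.Hyp

/-! Elements of finite order have a conjugate all of whose powers are short. -/

namespace Vale.Agent.P201.T

open Vale.Agent.P194 Vale.Agent.P194.H

variable {S G : Type} [Group G] (φ : S → G)

/-- the word metric -/
noncomputable def wd (u v : G) : ℕ := sInf {n | ∃ w : List S, w.length = n ∧ u * (w.map φ).prod = v}

variable {φ}

theorem prod_rev (h2 : ∀ s, φ s * φ s = 1) (w : List S) :
    (w.reverse.map φ).prod = ((w.map φ).prod)⁻¹ := by
  induction w with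
  | nil => simp
  | cons s w ih =>
    rw [List.reverse_cons, List.map_append, List.prod_append, ih]
    simp [inv_eq_of_mul_eq_one_right (h2 s)]

theorem exists_word (h2 : ∀ s, φ s * φ s = 1) (hgen : Subgroup.closure (Set.range φ) = ⊤) (g : G) :
    ∃ w : List S, (w.map φ).prod = g := by
  have hg : g ∈ Subgroup.closure (Set.range φ) := hgen ▸ trivial
  induction hg using Subgroup.closure_induction with
  | mem x hx => obtain ⟨s, rfl⟩ := hx; exact ⟨[s], by simp⟩
  | one => exact ⟨[], rfl⟩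
  | mul x y _ _ ix iy =>
    obtain ⟨a, rfl⟩ := ix
    obtain ⟨b, rfl⟩ := iy
    exact ⟨a ++ b, by simp⟩
  | inv x _ ix => obtain ⟨a, rfl⟩ := ix; exact ⟨a.reverse, prod_rev h2 a⟩

theorem wd_le {u v : G} (w : List S) (h : u * (w.map φ).prod = v) : wd φ u v ≤ w.length :=
  Nat.sInf_le ⟨w, rfl, h⟩

theorem wd_spec (hw : ∀ g, ∃ w : List S, (w.map φ).prod = g) (u v : G) :
    ∃ w : List S, w.length = wd φ u v ∧ u * (w.map φ).prod = v := by
  obtain ⟨w, h⟩ := hw (u⁻¹ * v)
  exact Nat.sInf_mem (s := {n | ∃ w : List S, w.length = n ∧ u * (w.map φ).prod = v})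
    ⟨_, w, rfl, by rw [h]; group⟩

theorem wd_mul (h u v : G) : wd φ (h * u) (h * v) = wd φ u v := by
  simp only [wd, mul_assoc, mul_right_inj]

theorem met {A : List S → ℕ → Prop} {L q : ℕ} (h2 : ∀ s, φ s * φ s = 1)
    (hw : ∀ g, ∃ w : List S, (w.map φ).prod = g) (h : AreaAx A L)
    (h1 : ∀ w n, A w n → (w.map φ).prod = 1)
    (hlin : ∀ w : List S, (w.map φ).prod = 1 → ∃ n, A w n ∧ L * n ≤ q * w.length) :
    Met (wd φ) (2 * L * q) := by
  have self : ∀ u, wd φ u u = 0 := fun u => Nat.le_zero.1 (wd_le [] (by simp))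
  have sy : ∀ u v, wd φ u v ≤ wd φ v u := fun u v => by
    obtain ⟨w, k1, k2⟩ := wd_spec hw v u
    rw [← k1, ← List.length_reverse]
    exact wd_le _ (by rw [prod_rev h2, ← k2]; group)
  have tri : ∀ u v z, wd φ u z ≤ wd φ u v + wd φ v z := fun u v z => by
    obtain ⟨a, k1, k2⟩ := wd_spec hw u v
    obtain ⟨b, k3, k4⟩ := wd_spec hw v z
    rw [← k1, ← k3, ← List.length_append]
    exact wd_le _ (by rw [List.map_append, List.prod_append, ← mul_assoc, k2, k4])
  have lip : ∀ f : G → ℤ, (∀ u v, wd φ u v = 1 → f u ≤ f v + 1) →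
      ∀ u s, |f (u * φ s) - f u| ≤ 1 := fun f hf u s => by
    have k := wd_le (φ := φ) (u := u) [s] (by simp : _ = u * φ s)
    by_cases c : wd φ u (u * φ s) = 0
    · obtain ⟨w, k1, k2⟩ := wd_spec hw u (u * φ s)
      obtain rfl := List.length_eq_zero_iff.1 (k1.trans c)
      rw [← k2]; simp
    · have e : wd φ u (u * φ s) = 1 := by simp at k; omega
      have k1 := hf _ _ e
      have k2 := hf _ _ ((le_antisymm (sy _ _) (sy _ _)).trans e)
      exact abs_le.2 ⟨by linarith, by linarith⟩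
  refine ⟨self, fun u v => le_antisymm (sy u v) (sy v u), tri, fun u v => ?_, fun f g hf hg => ?_⟩
  · obtain ⟨w, k1, k2⟩ := wd_spec hw u v
    have up : ∀ i j, i ≤ j → wd φ (u * ((w.take i).map φ).prod) (u * ((w.take j).map φ).prod) ≤
        j - i := fun i j hij => by
      refine (wd_le ((w.take j).drop i) ?_).trans (by simp; omega)
      rw [mul_assoc, ← List.prod_append, ← List.map_append]
      conv_rhs => rw [← List.take_append_drop i (w.take j), List.take_take, min_eq_left hij]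
    have e : u * ((w.take w.length).map φ).prod = v := by rw [List.take_length, k2]
    refine ⟨fun i => u * ((w.take i).map φ).prod, by simp, by rw [← k1]; exact e, Nat.zero_le _,
      fun i j _ c2 c3 => le_antisymm (up i j c2) ?_⟩
    have a1 := up 0 i (Nat.zero_le _)
    have a2 := up j w.length (by omega)
    rw [e] at a2
    simp only [List.take_zero, List.map_nil, List.prod_nil, mul_one] at a1
    have a3 := tri u (u * ((w.take i).map φ).prod) v
    have a4 := tri (u * ((w.take i).map φ).prod) (u * ((w.take j).map φ).prod) v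
    beta_reduce
    omega
  · refine ⟨fun u v n I => ∃ w : List S, u * (w.map φ).prod = v ∧ w.length = n ∧
      Om φ f g u w = I, fun u => ⟨[], by simp, rfl, rfl⟩, fun u v e => ?_, ?_, ?_⟩
    · obtain ⟨w, k1, k2⟩ := wd_spec hw u v
      obtain ⟨s, rfl⟩ := List.length_eq_one_iff.1 (k1.trans e)
      subst k2
      exact ⟨[s], rfl, rfl, by simp [Om]⟩
    · rintro u v w n m I J ⟨a, rfl, rfl, rfl⟩ ⟨b, rfl, rfl, rfl⟩
      exact ⟨a ++ b, by simp [mul_assoc], by simp, Om_append _ _ _ _ _ _⟩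
    · rintro u n I ⟨w, e, rfl, rfl⟩
      obtain ⟨b, hb, hb'⟩ := hlin w (by simpa using e)
      refine (Om_le h h2 h1 (lip f hf) (lip g hg) b w u hb).trans ?_
      have : (L * b : ℤ) ≤ q * w.length := by exact_mod_cast hb'
      push_cast
      rw [mul_assoc _ (q : ℤ), mul_assoc _ (L : ℤ)]
      gcongr

theorem center {D : ℕ} (hm : Met (wd φ) D) {x : G} (hx : IsOfFinOrder x) :
    ∃ z, ∀ h ∈ Subgroup.zpowers x, wd φ z (h * z) ≤ 4 * (40 * (6 * D + 1) + 6) + 1 := by
  classical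
  have hP : ∃ r, ∃ z, ∀ y ∈ Subgroup.zpowers x, wd φ z y ≤ r := by
    obtain ⟨r, hr⟩ := ((finite_zpowers.2 hx).image (wd φ 1)).bddAbove
    exact ⟨r, 1, fun y hy => hr ⟨y, hy, rfl⟩⟩
  obtain ⟨z, hz⟩ := Nat.find_spec hP
  refine ⟨z, fun h hh => ?_⟩
  have hz' : ∀ y ∈ Subgroup.zpowers x, wd φ (h * z) y ≤ Nat.find hP := fun y hy => by
    have := hz (h⁻¹ * y) (mul_mem (inv_mem hh) hy)
    rwa [← wd_mul h, mul_inv_cancel_left] at this
  by_contra hn
  obtain ⟨δ, hδ⟩ : ∃ δ, δ = 40 * (6 * D + 1) + 6 := ⟨_, rfl⟩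
  rw [← hδ] at hn
  obtain ⟨σ₁, a1, a2, a3⟩ := hm.geo z (h * z)
  have key : ∀ y ∈ Subgroup.zpowers x, wd φ (σ₁ (2 * δ + 1)) y + 1 ≤ Nat.find hP := by
    intro y hy
    obtain ⟨σ₂, b1, b2, b3⟩ := hm.geo (h * z) y
    obtain ⟨σ₃, c1, c2, c3⟩ := hm.geo y z
    have r1 := hz y hy
    have r2 := hz' y hy
    obtain ⟨j, hj⟩ := thin hm rfl _ σ₁ σ₂ σ₃ 0 _ 0 _ 0 _ (2 * δ + 1) (Nat.lt_succ_self _)
      ⟨a3, b3, c3, by rw [a2, b1, hm.self]; omega, by rw [b2, c1, hm.self]; omega,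
        by rw [c2, a1, hm.self]; omega⟩ (Nat.zero_le _) (by omega)
    rw [← hδ] at hj
    rcases hj with ⟨-, j2, j3⟩ | ⟨-, j2, j3⟩
    · have e1 := a3.2 (2 * δ + 1) _ (Nat.zero_le _) (by omega) le_rfl
      have e2 := b3.2 0 j le_rfl (Nat.zero_le _) j2
      have e3 := b3.2 j _ (Nat.zero_le _) j2 le_rfl
      rw [a2] at e1
      rw [b1, hm.symm] at e2
      rw [b2] at e3
      have t1 := hm.tri (σ₁ (2 * δ + 1)) (σ₂ j) (h * z)
      have t2 := hm.tri (σ₁ (2 * δ + 1)) (σ₂ j) y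
      omega
    · have e1 := a3.2 0 (2 * δ + 1) le_rfl (Nat.zero_le _) (by omega)
      have e2 := c3.2 0 j le_rfl (Nat.zero_le _) j2
      have e3 := c3.2 j _ (Nat.zero_le _) j2 le_rfl
      rw [a1, hm.symm] at e1
      rw [c1, hm.symm] at e2
      rw [c2] at e3
      rw [hm.symm] at r1
      have t1 := hm.tri (σ₁ (2 * δ + 1)) (σ₃ j) z
      have t2 := hm.tri (σ₁ (2 * δ + 1)) (σ₃ j) y
      omega
  have k1 := key 1 (one_mem _)
  exact Nat.find_min hP (m := Nat.find hP - 1) (by omega)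
    ⟨σ₁ (2 * δ + 1), fun y hy => by have := key y hy; omega⟩

end Vale.Agent.P201.T
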