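import Vale.Agent.P201.Tors2
import Vale.Agent.P201.Tors3
import Vale.Agent.P194.Design0

/-! Elements of even length have infinite order. -/

namespace Vale.Agent.P201

open Vale.Agent.P194

namespace T

variable {S V G : Type} [Group G]

/-- the path of darts of the Cayley graph read from `y` -/
def gp (φ : S → G) : G → List S → List (G × S)
  | _, [] => []
  | y, s :: w => (y, s) :: gp φ (y * φ s) w

theorem gp_append (φ : S → G) (a b : List S) : ∀ y,
    gp φ y (a ++ b) = gp φ y a ++ gp φ (y * (a.map φ).prod) b := by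
  induction a with
  | nil => simp [gp]
  | cons s a ih => intro y; simp [gp, ih, mul_assoc]

theorem gp_length (φ : S → G) (a : List S) : ∀ y, (gp φ y a).length = a.length := by
  induction a with
  | nil => simp [gp]
  | cons s a ih => intro y; simp [gp, ih]

/-- data for the transfer argument -/
structure Dat (π : S → V → V) (φ : S → G) (x : G) (l : ℕ) where
  u0 : V
  pot : V → G
  f : G → ZMod l
  β : G × S → ℤ
  inv : Invo π
  sq : ∀ s, φ s * φ s = 1
  cw : ∀ w, CW π w → (w.map φ).prod = 1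
  hpot : ∀ s v, π s v ≠ v → pot (π s v) = pot v * φ s
  hf : ∀ y, f (x * y) = f y + 1
  b1 : ∀ y s, β (y * φ s, s) = - β (y, s)
  b2 : ∀ y s, β (x * y, s) = β (y, s)
  b3 : ∀ y s, (β (y, s) : ZMod l) = f (y * φ s) - f y

variable {π : S → V → V} {φ : S → G} {x : G} {l : ℕ} (d : Dat π φ x l)

open Classical in
/-- the lifted graph -/
noncomputable def Dat.ctx : Ctx S (G × V) G (ZMod l → ℤ) where
  π := fun s a => if π s a.2 = a.2 then a else (a.1 * φ s, π s a.2)
  pr := Prod.fst
  φ := φ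
  om := fun p k => if d.f (p.1.1 * (d.pot p.1.2)⁻¹) = k then d.β (p.1.1, p.2) else 0
  inv := by
    intro s a
    by_cases h : π s a.2 = a.2
    · simp [h]
    · have h' : ¬ a.2 = π s a.2 := fun k => h k.symm
      simp [h, h', d.inv s a.2, mul_assoc, d.sq]
  sq := d.sq
  pr_step := by
    intro s a h
    by_cases k : π s a.2 = a.2
    · simp [k] at h
    · simp [k]
  anti := by
    intro s a h
    by_cases k : π s a.2 = a.2
    · simp [k] at h
    · ext j
      have e : a.1 * φ s * (d.pot a.2 * φ s)⁻¹ = a.1 * (d.pot a.2)⁻¹ := by group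
      simp only [k, if_false, d.hpot _ _ k, e, d.b1, Pi.neg_apply]
      split_ifs <;> simp
  surj := fun y => ⟨(y, d.u0), rfl⟩

theorem Dat.cov : Cov d.ctx π Prod.snd where
  step := by
    intro s a h
    by_cases k : π s a.2 = a.2
    · simp [Dat.ctx, k] at h
    · simp [Dat.ctx, k]
  ext := fun _ _ h1 h2 => Prod.ext h1 h2

/-- the integral of the cochain along a path -/
def Dat.bp (y : G) (w : List S) : ℤ := ((gp φ y w).map d.β).sum

theorem Dat.bp_nil (y : G) : d.bp y [] = 0 := rfl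

theorem Dat.bp_cons (y : G) (s : S) (w : List S) :
    d.bp y (s :: w) = d.β (y, s) + d.bp (y * φ s) w := by simp [Dat.bp, gp]

theorem Dat.bp_append (y : G) (a b : List S) :
    d.bp y (a ++ b) = d.bp y a + d.bp (y * (a.map φ).prod) b := by simp [Dat.bp, gp_append]

theorem Dat.bp_shift (w : List S) : ∀ y, d.bp (x * y) w = d.bp y w := by
  induction w with
  | nil => intro y; rfl
  | cons s w ih => intro y; rw [d.bp_cons, d.bp_cons, d.b2, mul_assoc, ih]

theorem Dat.bp_cast (w : List S) : ∀ y, (d.bp y w : ZMod l) = d.f (y * (w.map φ).prod) - d.f y := by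
  induction w with
  | nil => intro y; simp [d.bp_nil]
  | cons s w ih => intro y; rw [d.bp_cons, Int.cast_add, d.b3, ih]; simp [mul_assoc]

theorem Dat.gp_rev (a : List S) : ∀ y,
    gp φ (y * (a.map φ).prod) a.reverse = rb d.ctx (gp φ y a) := by
  induction a with
  | nil => intro y; rfl
  | cons s a ih =>
    intro y
    rw [List.reverse_cons, gp_append, List.map_cons, List.prod_cons, ← mul_assoc, ih,
      prod_rev d.sq, mul_inv_cancel_right]
    simp [gp, bar, Dat.ctx]

theorem Dat.bp_rev (a : List S) : ∀ y, d.bp (y * (a.map φ).prod) a.reverse = - d.bp y a := by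
  induction a with
  | nil => intro y; rfl
  | cons s a ih =>
    intro y
    rw [List.reverse_cons, d.bp_append, List.map_cons, List.prod_cons, ← mul_assoc, ih,
      prod_rev d.sq, mul_inv_cancel_right, d.bp_cons, d.bp_cons, d.bp_nil, d.b1]
    ring

theorem Dat.path (w : List S) : ∀ (y : G) (u : V), Walk π u w →
    ∃ p, Pt d.ctx p (y, u) (y * (w.map φ).prod, run π u w) ∧ p.map (bd d.ctx) = gp φ y w ∧
      ∀ k, val d.ctx p k = if d.f (y * (d.pot u)⁻¹) = k then d.bp y w else 0 := by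
  induction w with
  | nil => intro y u _; exact ⟨[], by simp [Pt, Pth], rfl, fun k => by simp [d.bp_nil]⟩
  | cons s w ih =>
    intro y u h
    obtain ⟨p, k1, k2, k3⟩ := ih (y * φ s) (π s u) h.2
    have e : d.ctx.π s (y, u) = (y * φ s, π s u) := by simp [Dat.ctx, h.1]
    refine ⟨((y, u), s) :: p, ⟨rfl, ?_, ?_⟩, by rw [List.map_cons, k2]; rfl, fun k => ?_⟩
    · rw [e]; exact fun k => h.1 (congrArg Prod.snd k)
    · rw [e, List.map_cons, List.prod_cons, ← mul_assoc]; exact k1
    · have e2 : y * φ s * (d.pot u * φ s)⁻¹ = y * (d.pot u)⁻¹ := by group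
      rw [val_cons, Pi.add_apply, k3, d.hpot _ _ h.1, e2, d.bp_cons]
      simp only [Dat.ctx]
      split_ifs <;> simp

/-- a family of values of fillings with the symmetries that are needed -/
def Dat.Fam [NeZero l] (w : List S) (t : ℕ) (v : G → ZMod l → ℤ) : Prop :=
  ∀ y, Fil d.ctx (gp φ y w) t (v y) ∧ (∀ k, v (x * y) (k + 1) = v y k) ∧
    (∀ k, (v y k : ZMod l) = 0) ∧ ∑ k, v y k = - d.bp y w

theorem Dat.lift [NeZero l] {Val : List S → Prop} (hV : ∀ w, Val w → CW π w) {w : List S}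
    {U : Multiset S} {n : ℕ} {M : Multiset (Sym2 S)} (h : Der id Val w U n M) :
    (w.map φ).prod = 1 ∧ ∃ v, d.Fam w (Multiset.card U) v := by
  induction h with
  | nil => exact ⟨rfl, 0, fun y => ⟨Fil.nil, by simp, by simp, by simp [d.bp_nil]⟩⟩
  | mat a b e s s' U1 n1 M1 U2 n2 M2 hc h1 h2 ih1 ih2 =>
    obtain rfl : s = s' := hc
    obtain ⟨p1, v1, f1⟩ := ih1
    obtain ⟨p2, v2, f2⟩ := ih2
    refine ⟨?_, fun y => v1 (y * (a.map φ).prod * φ s) + v2 y, fun y => ?_⟩
    · simp only [List.map_append, List.prod_append, List.map_cons, List.prod_cons, p1] at p2 ⊢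
      rw [one_mul, ← mul_assoc (φ s), d.sq, one_mul, p2]
    · obtain ⟨a1, a2, a3, a4⟩ := f1 (y * (a.map φ).prod * φ s)
      obtain ⟨b1, b2, b3, b4⟩ := f2 y
      rw [gp_append] at b1
      have e1 : y * (a.map φ).prod * φ s * φ s = y * (a.map φ).prod := by
        rw [mul_assoc, d.sq, mul_one]
      refine ⟨(Fil.mat (x := (y * (a.map φ).prod, s)) a1 b1).cast ?_ (by simp) rfl, fun k => ?_,
        fun k => by simp [a3, b3], ?_⟩
      · simp only [gp_append, gp, p1, mul_one, e1]; rfl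
      · simp only [Pi.add_apply, mul_assoc x, a2, b2]
      · simp only [Pi.add_apply, Finset.sum_add_distrib, a4, b4, d.bp_append, d.bp_cons, p1,
          mul_one, e1, d.b1]
        ring
  | opn a r e s s' U n M hc hv h ih =>
    obtain rfl : s = s' := hc
    obtain ⟨p1, v1, f1⟩ := ih
    obtain ⟨u, w1, w2⟩ := hV _ hv
    have p0 := d.cw _ (hV _ hv)
    have p2 : (r.map φ).prod = φ s := by
      rw [List.map_cons, List.prod_cons, ← d.sq s] at p0
      exact mul_left_cancel p0
    refine ⟨?_, fun y => (fun k => if d.f (y * (a.map φ).prod * φ s * (d.pot u)⁻¹) = k then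
      d.bp (y * (a.map φ).prod * φ s) (s :: r) else 0) + v1 y, fun y => ?_⟩
    · simpa [p2] using p1
    · obtain ⟨b1, b2, b3, b4⟩ := f1 y
      obtain ⟨p, k1, k2, k3⟩ := d.path (s :: r) (y * (a.map φ).prod * φ s) u w1
      rw [p0, mul_one, w2] at k1
      have e1 : y * (a.map φ).prod * φ s * φ s = y * (a.map φ).prod := by
        rw [mul_assoc, d.sq, mul_one]
      rw [gp, e1] at k2
      rw [gp_append, gp_append, p2] at b1
      refine ⟨(Fil.opn (x := (y * (a.map φ).prod, s)) ⟨p, ⟨_, k1⟩, k2, funext k3⟩ b1).cast ?_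
        (by simp [gp_length]) rfl, fun k => ?_, fun k => ?_, ?_⟩
      · simp only [gp_append, gp]
      · simp only [Pi.add_apply, mul_assoc x, b2, d.hf, d.bp_shift, add_left_inj]
      · simp only [Pi.add_apply, Int.cast_add, b3, add_zero]
        split_ifs
        · rw [d.bp_cast, p0, mul_one, sub_self]
        · simp
      · simp only [Pi.add_apply, Finset.sum_add_distrib, b4, Finset.sum_ite_eq, Finset.mem_univ,
          if_true, d.bp_append, d.bp_cons, p2, e1, d.b1]
        ring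

theorem sum_shift {l : ℕ} {x : G} (hx : x ^ l = 1) (F : G → ℤ) :
    ∑ j ∈ Finset.range l, F (x ^ j * x) = ∑ j ∈ Finset.range l, F (x ^ j) := by
  have h1 := Finset.sum_range_succ (fun j => F (x ^ j)) l
  have h2 := Finset.sum_range_succ' (fun j => F (x ^ j)) l
  simp only [hx, pow_zero, pow_succ] at h1 h2
  linarith

theorem Dat.contra [NeZero l] (hl : 1 < l) (hx : x ^ l = 1) {N t ρ : ℕ} (h : LA d.ctx N)
    (ht : 4 * t ≤ N) (u : G → List S) (hu : ∀ g, ((u g).map φ).prod = g)
    (hρ : ∀ j : ℕ, (u (x ^ j)).length ≤ ρ)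
    (hfil : ∀ w : List S, (w.map φ).prod = 1 → w.length ≤ 3 * ρ → ∃ v, d.Fam w t v) : False := by
  have tri : ∀ a b : G, ∃ v : G → ZMod l → ℤ, (u a).length ≤ ρ → (u b).length ≤ ρ →
      (u (a * b)).length ≤ ρ → ∀ y, Fil d.ctx (gp φ y (u a) ++ (gp φ (y * a) (u b) ++
        rb d.ctx (gp φ y (u (a * b))))) t (v y) ∧ (∀ k, v (x * y) (k + 1) = v y k) ∧
        (∀ k, (v y k : ZMod l) = 0) ∧
        ∑ k, v y k = - (d.bp y (u a) + d.bp (y * a) (u b) - d.bp y (u (a * b))) := by
    intro a b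
    by_cases c : (u a).length ≤ ρ ∧ (u b).length ≤ ρ ∧ (u (a * b)).length ≤ ρ
    · obtain ⟨v, hv⟩ := hfil (u a ++ (u b ++ (u (a * b)).reverse))
        (by simp only [List.map_append, List.prod_append, prod_rev d.sq, hu]; group)
        (by simp; omega)
      refine ⟨v, fun _ _ _ y => ?_⟩
      obtain ⟨k1, k2, k3, k4⟩ := hv y
      have e1 := d.gp_rev (u (a * b)) y
      have e2 := d.bp_rev (u (a * b)) y
      rw [hu, ← mul_assoc] at e1 e2
      rw [gp_append, gp_append, hu, hu, e1] at k1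
      rw [d.bp_append, d.bp_append, hu, hu, e2] at k4
      exact ⟨k1, k2, k3, by rw [k4]; ring⟩
    · exact ⟨0, fun k1 k2 k3 => absurd ⟨k1, k2, k3⟩ c⟩
  choose v hv using tri
  have r1 : (u x).length ≤ ρ := by simpa using hρ 1
  have r2 : ∀ j : ℕ, (u (x ^ j * x)).length ≤ ρ := fun j => by rw [← pow_succ]; exact hρ _
  have cm : ∀ j : ℕ, x * x ^ j = x ^ j * x := fun j => by rw [← pow_succ, ← pow_succ']
  have hA := fun j : ℕ => hv (x ^ j) x (hρ j) r1 (r2 j)
  have hB := fun j : ℕ => (hv x (x ^ j) r1 (hρ j) (by rw [cm]; exact r2 j) 1).1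
  have key : ∀ j : ℕ, v x (x ^ j) 1 + v (x ^ j * x) x 1 = v (x ^ j) x x + v x (x ^ j * x) 1 := by
    intro j
    have a1 := hB j
    have a2 := (hA (j + 1) 1).1
    have a3 := (hA j x).1
    have a4 := hB (j + 1)
    rw [pow_succ] at a2 a4
    rw [cm] at a1 a3
    rw [← mul_assoc, cm] at a4
    simp only [one_mul] at a1 a2 a4
    have b1 := h.cancL (t := t + t) (by omega) (gp φ 1 (u (x ^ j * x)))
      (gp φ 1 (u x) ++ gp φ x (u (x ^ j)))
      (gp φ (x ^ j * x) (u x) ++ rb d.ctx (gp φ 1 (u (x ^ j * x * x))))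
      ((a1.cat a2).cast (by simp) le_rfl rfl)
    have b2 := h.cancL (t := t + t) (by omega) (gp φ x (u (x ^ j * x)))
      (gp φ 1 (u x) ++ (gp φ x (u (x ^ j)) ++ gp φ (x ^ j * x) (u x)))
      (rb d.ctx (gp φ 1 (u (x ^ j * x * x))))
      ((a3.ins a4).cast (by simp) le_rfl rfl)
    exact h.uniq b1 (b2.cast (by simp) le_rfl rfl) (by omega)
  let a : ZMod l → ℤ := fun k => ∑ j ∈ Finset.range l, v (x ^ j) x 1 k
  have a1 : ∀ k, a (k + 1) = a k := by
    intro k
    have s1 := Finset.sum_congr (s₁ := Finset.range l) rfl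
      (fun j _ => congrFun (key j) (k + 1))
    simp only [Pi.add_apply, Finset.sum_add_distrib] at s1
    rw [sum_shift hx (fun g => v g x 1 (k + 1)), sum_shift hx (fun g => v x g 1 (k + 1))] at s1
    have s2 : ∑ j ∈ Finset.range l, v (x ^ j) x x (k + 1) = a k :=
      Finset.sum_congr rfl fun j _ => by simpa using (hA j 1).2.1 k
    simp only [a] at s2 ⊢
    linarith
  have a2 : ∀ k, a k = a 0 := by
    intro k
    obtain ⟨n, rfl⟩ := ZMod.natCast_zmod_surjective k
    induction n with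
    | zero => simp
    | succ n ih => rw [Nat.cast_succ, a1, ih]
  have sh : ∀ j : ℕ, d.bp (x ^ j) (u x) = d.bp 1 (u x) := by
    intro j
    induction j with
    | zero => simp
    | succ j ih => rw [pow_succ', d.bp_shift, ih]
  have a3 : ∑ k, a k = - (l * d.bp 1 (u x)) := by
    simp only [a]
    rw [Finset.sum_comm, Finset.sum_congr rfl fun j _ => (hA j 1).2.2.2]
    simp only [one_mul, sh, Finset.sum_neg_distrib, Finset.sum_sub_distrib,
      Finset.sum_add_distrib]
    rw [sum_shift hx (fun g => d.bp 1 (u g))]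
    simp
  rw [Finset.sum_congr rfl fun k _ => a2 k] at a3
  simp only [Finset.sum_const, Finset.card_univ, ZMod.card, nsmul_eq_mul] at a3
  have a4 : a 0 = - d.bp 1 (u x) :=
    mul_left_cancel₀ (by exact_mod_cast (by omega : l ≠ 0) : (l : ℤ) ≠ 0) (by linarith)
  have a5 : ((a 0 : ℤ) : ZMod l) = 0 := by
    simp only [a, Int.cast_sum]
    exact Finset.sum_eq_zero fun j _ => (hA j 1).2.2.1 0
  have a6 := d.hf 1
  rw [mul_one] at a6
  rw [a4, Int.cast_neg, d.bp_cast, hu, one_mul, a6] at a5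
  haveI : Fact (1 < l) := ⟨hl⟩
  simp at a5

theorem exists_f (x : G) : ∃ f : G → ZMod (orderOf x), ∀ y, f (x * y) = f y + 1 := by
  let r : G → G := fun y => (Quotient.mk (QuotientGroup.rightRel (Subgroup.zpowers x)) y).out
  have hr : ∀ y, ∃ k : ℤ, x ^ k = y * (r y)⁻¹ := fun y =>
    Subgroup.mem_zpowers_iff.1 (QuotientGroup.rightRel_apply.1
      (Quotient.mk_out (s := QuotientGroup.rightRel (Subgroup.zpowers x)) y))
  choose k hk using hr
  refine ⟨fun y => (k y : ZMod (orderOf x)), fun y => ?_⟩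
  have e : r (x * y) = r y := by
    simp only [r]
    congr 1
    exact Quotient.sound (QuotientGroup.rightRel_apply.2 (by simp))
  have h1 : x ^ k (x * y) = x ^ (k y + 1) := by
    rw [hk, e, add_comm, zpow_add, zpow_one, hk, mul_assoc]
  have := (ZMod.intCast_eq_intCast_iff _ _ _).2 (zpow_eq_zpow_iff_modEq.1 h1)
  simpa using this

end T

open T in
theorem tors : TorsStmt := by
  classical
  intro C q q'
  refine ⟨17 * (12 * q' * (5760 * C * q' + 185)) + 2, ?_⟩
  intro S V _ π c0 g D ε hg1 hπ hg hD hD1 hDC hc hlin hε x0 hx0 hfin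
  by_contra hne
  have hw := exists_word (gen_sq (π := π)) gen_closure
  have ax := areaAx (Val := CWL π (3 * D)) CWL.rot (CWL.rev hπ) (3 * D) (fun _ h => h.2)
    (fun s ⟨⟨v, h1, h2⟩, _⟩ => h1.1 h2)
  have h1 : ∀ w n, (∃ t, Ar (CWL π (3 * D)) w t n) → (w.map (gen π)).prod = 1 := by
    rintro w n ⟨t, U, n', M, -, -, d⟩
    have := d.map (col' := id) (Val' := CW π) id (fun _ _ => rfl) (fun l hl _ => by simpa using hl.1)
    simpa using this.prod_one
  have h2 : ∀ w : List S, (w.map (gen π)).prod = 1 →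
      ∃ n, (∃ t, Ar (CWL π (3 * D)) w t n) ∧ 3 * D * n ≤ q' * w.length := by
    intro w hw1
    obtain ⟨t, n, U, n', M, -, -, d⟩ := complete hπ hw1
    obtain ⟨t', m, k, -⟩ := d.transfer CWL.rot (CWL.rev hπ) D (chop hπ hD1 hD)
    obtain ⟨b, -, hb⟩ := B.exists_area (A := fun w n => ∃ t, Ar (CWL π (3 * D)) w t n) ⟨t', k⟩
    exact ⟨b, hb.1, hlin w b hb⟩
  obtain ⟨z, hz⟩ := center (met gen_sq hw ax h1 h2) hfin
  obtain ⟨x, hx⟩ : ∃ x, x = z⁻¹ * x0 * z := ⟨_, rfl⟩
  have hp : ∀ j : ℕ, x ^ j = z⁻¹ * x0 ^ j * z := fun j => by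
    have := conj_pow (a := z⁻¹) (b := x0) (i := j)
    rwa [inv_inv, ← hx] at this
  have hfx : IsOfFinOrder x := by
    obtain ⟨n, hn, e⟩ := isOfFinOrder_iff_pow_eq_one.1 hfin
    exact isOfFinOrder_iff_pow_eq_one.2 ⟨n, hn, by rw [hp, e]; group⟩
  have hx1 : x ≠ 1 := fun e => hne (by
    have : x0 = z * x * z⁻¹ := by rw [hx]; group
    rw [this, e]; group)
  have hl : 1 < orderOf x := by
    have a := hfx.orderOf_pos
    have b : orderOf x ≠ 1 := fun e => hx1 (orderOf_eq_one_iff.1 e)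
    omega
  haveI : NeZero (orderOf x) := ⟨by omega⟩
  have hεx : ε x = 1 := by rw [hx, map_mul, map_mul, hx0, map_inv]; simp
  have par : ∀ y s, ε (y * gen π s) = 1 ↔ ¬ ε y = 1 := by
    intro y s
    have := hε s
    rw [map_mul]
    generalize ε y = a at *
    generalize ε (gen π s) = b at *
    revert a b
    decide
  obtain ⟨f, hf⟩ := exists_f x
  obtain ⟨pot, hpot⟩ := F.exists_pot hπ (gen_sq (π := π)) (fun v w a b => gen_cw ⟨v, a, b⟩)
  let d : Dat π (gen π) x (orderOf x) :=
    { u0 := c0, pot := pot, f := f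
      β := fun p => if ε p.1 = 1 then ((f (p.1 * gen π p.2) - f p.1).val : ℤ)
        else - ((f p.1 - f (p.1 * gen π p.2)).val : ℤ)
      inv := hπ, sq := gen_sq, cw := fun _ => gen_cw, hpot := hpot, hf := hf
      b1 := fun y s => by
        simp only [par, mul_assoc, gen_sq, mul_one]
        split_ifs <;> simp
      b2 := fun y s => by simp [hεx, mul_assoc, hf]
      b3 := fun y s => by
        beta_reduce
        split_ifs <;> simp }
  choose u hu1 hu2 using fun h => wd_spec hw 1 h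
  refine d.contra hl (pow_orderOf_eq_one x) (la_of d.cov hg hc _ le_rfl)
    (t := q' * (3 * (5760 * D * q' + 185))) (ρ := 5760 * D * q' + 185) ?_ u
    (fun h => by simpa using hu2 h) (fun j => ?_) (fun w k1 k2 => ?_)
  · have a : D * q' ≤ C * (g + 1) * q' := Nat.mul_le_mul_right _ hDC
    have b : 5760 * D * q' + 185 ≤ (5760 * C * q' + 185) * (g + 1) := by nlinarith
    have := Nat.mul_le_mul_left (12 * q') b
    nlinarith
  · have := hz (x0 ^ j) (Subgroup.npow_mem_zpowers x0 j)
    rw [← wd_mul z⁻¹, inv_mul_cancel, ← mul_assoc, ← hp] at this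
    rw [hu1]
    refine this.trans (le_of_eq ?_)
    ring
  · obtain ⟨n, ⟨t, U, n', M, -, k3, dd⟩, k4⟩ := h2 w k1
    obtain ⟨-, v, hv⟩ := d.lift (fun _ h => h.1) dd
    have k5 := dd.face_mem (3 * D) (fun _ h => h.2)
    have k6 := Nat.mul_le_mul_left (3 * D) k3
    have k7 := Nat.mul_le_mul_left q' k2
    exact ⟨v, fun y => ⟨(hv y).1.cast rfl (by omega) rfl, (hv y).2⟩⟩

end Vale.Agent.P201
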