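import Vale.Agent.P201.Defs

/-! Fillings of words of darts of a Cayley graph, with values in an abelian group. -/

namespace Vale.Agent.P201.T

open Vale.Agent.P194

/-- a coloured graph lying over a group, with antisymmetric weights on its darts -/
structure Ctx (S W G A : Type) [Group G] [AddCommGroup A] where
  π : S → W → W
  pr : W → G
  φ : S → G
  om : W × S → A
  inv : Invo π
  sq : ∀ s, φ s * φ s = 1
  pr_step : ∀ s a, π s a ≠ a → pr (π s a) = pr a * φ s
  anti : ∀ s a, π s a ≠ a → om (π s a, s) = - om (a, s)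
  surj : Function.Surjective pr

variable {S W G A : Type} [Group G] [AddCommGroup A] (c : Ctx S W G A)

/-- the dart of the Cayley graph below a dart of the graph -/
def bd (p : W × S) : G × S := (c.pr p.1, p.2)

/-- the opposite dart -/
def bar (x : G × S) : G × S := (x.1 * c.φ x.2, x.2)

@[simp] theorem bar_bar (x : G × S) : bar c (bar c x) = x := by
  simp [bar, mul_assoc, c.sq]

/-- the reversed word -/
def rb (w : List (G × S)) : List (G × S) := (w.map (bar c)).reverse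

@[simp] theorem rb_nil : rb c [] = [] := rfl
@[simp] theorem rb_cons (x : G × S) (w : List (G × S)) : rb c (x :: w) = rb c w ++ [bar c x] := by
  simp [rb]
@[simp] theorem rb_append (a b : List (G × S)) : rb c (a ++ b) = rb c b ++ rb c a := by simp [rb]
@[simp] theorem rb_rb (a : List (G × S)) : rb c (rb c a) = a := by
  induction a with
  | nil => rfl
  | cons x a ih => simp [ih]
@[simp] theorem rb_length (a : List (G × S)) : (rb c a).length = a.length := by simp [rb]

/-- paths of darts -/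
abbrev Pt (l : List (W × S)) (a b : W) : Prop := Pth c.π Prod.snd Prod.fst l a b

/-- closed paths of darts -/
def Vl (l : List (W × S)) : Prop := ∃ a, Pt c l a a

/-- matched letters lie over opposite darts -/
def Good {Λ : Type} (F : Λ → W × S) (M : Multiset (Sym2 Λ)) : Prop :=
  ∀ p q, s(p, q) ∈ M → bd c (F q) = bar c (bd c (F p))

/-- total weight of a list of darts -/
def val (l : List (W × S)) : A := (l.map c.om).sum

/-- a filling of perimeter at most `t` and value `v` -/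
def Fil (w : List (G × S)) (t : ℕ) (v : A) : Prop :=
  ∃ l U n M, Der Prod.snd (Vl c) l U n M ∧ Good c id M ∧ l.map (bd c) = w ∧
    Multiset.card U ≤ t ∧ (U.map c.om).sum = v

/-- a face with its value -/
def Fc (w : List (G × S)) (v : A) : Prop := ∃ l, Vl c l ∧ l.map (bd c) = w ∧ val c l = v

variable {c}

@[simp] theorem val_nil : val c [] = 0 := rfl
@[simp] theorem val_cons (p : W × S) (l : List (W × S)) : val c (p :: l) = c.om p + val c l := by
  simp [val]
@[simp] theorem val_append (a b : List (W × S)) : val c (a ++ b) = val c a + val c b := by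
  simp [val]

theorem Vl.rot (a b : List (W × S)) (h : Vl c (a ++ b)) : Vl c (b ++ a) := by
  obtain ⟨u, h⟩ := h
  obtain ⟨u', h1, h2⟩ := (pth_append a b u u).1 h
  exact ⟨u', (pth_append b a u' u').2 ⟨u, h2, h1⟩⟩

theorem good_cons {Λ : Type} {F : Λ → W × S} {x y : Λ} {M : Multiset (Sym2 Λ)} :
    Good c F (s(x, y) ::ₘ M) ↔ bd c (F y) = bar c (bd c (F x)) ∧ Good c F M := by
  constructor
  · exact fun h => ⟨h x y (by simp), fun p q k => h p q (by simp [k])⟩
  · rintro ⟨h1, h2⟩ p q k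
    simp only [Multiset.mem_cons, Sym2.eq_iff] at k
    rcases k with (⟨rfl, rfl⟩ | ⟨rfl, rfl⟩) | k
    · exact h1
    · rw [h1, bar_bar]
    · exact h2 p q k

theorem good_add {Λ : Type} {F : Λ → W × S} {M M' : Multiset (Sym2 Λ)} :
    Good c F (M + M') ↔ Good c F M ∧ Good c F M' := by
  constructor
  · exact fun h => ⟨fun p q k => h p q (by simp [k]), fun p q k => h p q (by simp [k])⟩
  · rintro ⟨h1, h2⟩ p q k
    exact (Multiset.mem_add.1 k).elim (h1 p q) (h2 p q)

theorem good_zero {Λ : Type} {F : Λ → W × S} : Good c F (0 : Multiset (Sym2 Λ)) := by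
  simp [Good]

theorem snd_of_bd {p q : W × S} (h : bd c q = bar c (bd c p)) : p.2 = q.2 :=
  (congrArg Prod.snd h).symm

theorem retag {Val : List (W × S) → Prop} {l : List (W × S)} {U : Multiset (W × S)} {n : ℕ}
    {M : Multiset (Sym2 (W × S))} (d : Der Prod.snd Val l U n M) : Good c id M →
    ∀ l', l'.map (bd c) = l.map (bd c) → ∃ M', Der Prod.snd Val l' U n M' ∧ Good c id M' := by
  induction d with
  | nil =>
    intro _ l' e
    obtain rfl := List.map_eq_nil_iff.1 e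
    exact ⟨0, Der.nil, good_zero⟩
  | mat a0 b0 c0 x y U1 n1 M1 U2 n2 M2 hc h1 h2 ih1 ih2 =>
    intro g v e
    rw [good_cons, good_add] at g
    rw [List.map_append, List.map_cons, List.map_append, List.map_cons] at e
    obtain ⟨a, v1, rfl, ea, e⟩ := List.map_eq_append_iff.1 e
    obtain ⟨x', v2, rfl, ex, e⟩ := List.map_eq_cons_iff.1 e
    obtain ⟨b, v3, rfl, eb, e⟩ := List.map_eq_append_iff.1 e
    obtain ⟨y', c', rfl, ey, ec⟩ := List.map_eq_cons_iff.1 e
    obtain ⟨M3, p1, p2⟩ := ih1 g.2.1 b eb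
    obtain ⟨M4, q1, q2⟩ := ih2 g.2.2 (a ++ c') (by simp [ea, ec])
    have k : bd c y' = bar c (bd c x') := by rw [ex, ey]; exact g.1
    exact ⟨_, Der.mat a b c' x' y' _ _ _ _ _ _ (snd_of_bd k) p1 q1,
      good_cons.2 ⟨k, good_add.2 ⟨p2, q2⟩⟩⟩
  | opn a0 r c0 x y U n M hc hv h ih =>
    intro g v e
    rw [good_cons] at g
    rw [List.map_append, List.map_cons] at e
    obtain ⟨a, v1, rfl, ea, e⟩ := List.map_eq_append_iff.1 e
    obtain ⟨x', c', rfl, ex, ec⟩ := List.map_eq_cons_iff.1 e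
    obtain ⟨M3, p1, p2⟩ := ih g.2 (a ++ (r ++ c')) (by simp [ea, ec])
    have k : bd c y = bar c (bd c x') := by rw [ex]; exact g.1
    exact ⟨_, Der.opn a r c' x' y _ _ _ (snd_of_bd k) hv p1, good_cons.2 ⟨k, p2⟩⟩

variable {w a b e r : List (G × S)} {t t' : ℕ} {v v' : A} {x : G × S}

theorem Fil.get (h : Fil c w t v) (l : List (W × S)) (hl : l.map (bd c) = w) :
    ∃ U n M, Der Prod.snd (Vl c) l U n M ∧ Good c id M ∧ Multiset.card U ≤ t ∧
      (U.map c.om).sum = v := by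
  obtain ⟨l0, U, n, M, d, g, e, k1, k2⟩ := h
  obtain ⟨M', d', g'⟩ := retag d g l (by rw [hl, e])
  exact ⟨U, n, M', d', g', k1, k2⟩

theorem fil_of {l : List (W × S)} {U : Multiset (W × S)} {n : ℕ}
    {M : Multiset (Sym2 (W × S))} (d : Der Prod.snd (Vl c) l U n M) (g : Good c id M) :
    Fil c (l.map (bd c)) (Multiset.card U) (U.map c.om).sum := ⟨l, U, n, M, d, g, rfl, le_rfl, rfl⟩

theorem Fil.cast {w' : List (G × S)} (h : Fil c w t v) (e1 : w = w') (e2 : t ≤ t') (e3 : v = v') :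
    Fil c w' t' v' := by
  obtain ⟨l, U, n, M, d, g, e, k1, k2⟩ := h
  exact ⟨l, U, n, M, d, g, e.trans e1, k1.trans e2, k2.trans e3⟩

theorem Fil.nil : Fil c [] 0 0 := ⟨[], 0, 0, 0, Der.nil, good_zero, rfl, le_rfl, rfl⟩

theorem Fil.of_nil (h : Fil c [] t v) : v = 0 := by
  obtain ⟨l, U, n, M, d, g, e, k1, k2⟩ := h
  obtain ⟨rfl, -, -⟩ := d.of_nil' (List.map_eq_nil_iff.1 e)
  exact k2.symm

theorem Fil.rot (h : Fil c (a ++ b) t v) : Fil c (b ++ a) t v := by
  obtain ⟨l, U, n, M, d, g, e, k1, k2⟩ := h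
  obtain ⟨a', b', rfl, ea, eb⟩ := List.map_eq_append_iff.1 e
  exact ⟨_, U, n, M, d.rot, g, by simp [ea, eb], k1, k2⟩

theorem Fil.ins (h : Fil c b t v) (h' : Fil c (a ++ e) t' v') :
    Fil c (a ++ (b ++ e)) (t + t') (v + v') := by
  obtain ⟨l, U, n, M, d, g, e1, k1, k2⟩ := h
  obtain ⟨l', U', n', M', d', g', e', k1', k2'⟩ := h'
  obtain ⟨a', b', rfl, ea, eb⟩ := List.map_eq_append_iff.1 e'
  exact ⟨_, _, _, _, d.ins d', good_add.2 ⟨g, g'⟩, by simp [ea, eb, e1],
    by rw [Multiset.card_add]; omega, by rw [Multiset.map_add, Multiset.sum_add, k2, k2']⟩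

theorem Fil.cat (h : Fil c b t v) (h' : Fil c e t' v') : Fil c (b ++ e) (t + t') (v + v') :=
  Fil.ins (a := []) h h'

theorem bd_surj (x : G × S) : ∃ p, bd c p = x := by
  obtain ⟨u, hu⟩ := c.surj x.1
  exact ⟨(u, x.2), by simp [bd, hu]⟩

theorem Fil.mat (h : Fil c b t v) (h' : Fil c (a ++ e) t' v') :
    Fil c (a ++ x :: (b ++ bar c x :: e)) (t + t') (v + v') := by
  obtain ⟨l, U, n, M, d, g, e1, k1, k2⟩ := h
  obtain ⟨l', U', n', M', d', g', e', k1', k2'⟩ := h'
  obtain ⟨a', b', rfl, ea, eb⟩ := List.map_eq_append_iff.1 e'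
  obtain ⟨p, rfl⟩ := bd_surj (c := c) x
  obtain ⟨q, hq⟩ := bd_surj (c := c) (bar c (bd c p))
  exact ⟨_, _, _, _, Der.mat a' l b' p q _ _ _ _ _ _ (snd_of_bd hq) d d',
    good_cons.2 ⟨hq, good_add.2 ⟨g, g'⟩⟩, by simp [ea, eb, e1, hq],
    by rw [Multiset.card_add]; omega, by rw [Multiset.map_add, Multiset.sum_add, k2, k2']⟩

theorem Fil.opn (hv : Fc c (bar c x :: r) v') (h : Fil c (a ++ (r ++ e)) t v) :
    Fil c (a ++ x :: e) (r.length + 1 + t) (v' + v) := by
  obtain ⟨f, f1, f2, f3⟩ := hv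
  obtain ⟨y, r', rfl, ey, er⟩ := List.map_eq_cons_iff.1 f2
  obtain ⟨l, -, -, -, -, -, e1, -⟩ := id h
  obtain ⟨a', l1, rfl, ea, e2⟩ := List.map_eq_append_iff.1 e1
  obtain ⟨-, e', -, -, ee⟩ := List.map_eq_append_iff.1 e2
  obtain ⟨U, n, M, d, g, k1, k2⟩ := h.get (a' ++ (r' ++ e')) (by simp [ea, er, ee])
  obtain ⟨p, rfl⟩ := bd_surj (c := c) x
  refine ⟨_, _, _, _, Der.opn a' r' e' p y _ _ _ (snd_of_bd ey) f1 d, good_cons.2 ⟨ey, g⟩,
    by simp [ea, ee], ?_, ?_⟩
  · rw [Multiset.card_add, Multiset.coe_card, ← er]; simp; omega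
  · rw [Multiset.map_add, Multiset.sum_add, k2, ← f3]; simp [val]

theorem Fil.first (h : Fil c (x :: e) t v) :
    (∃ b e' t1 v1 t2 v2, e = b ++ bar c x :: e' ∧ t1 + t2 ≤ t ∧ v = v1 + v2 ∧ Fil c b t1 v1 ∧
      Fil c e' t2 v2) ∨
    (∃ r v0 t1 v1, Fc c (bar c x :: r) v0 ∧ r.length + 1 + t1 ≤ t ∧ v = v0 + v1 ∧
      Fil c (r ++ e) t1 v1) := by
  obtain ⟨l, U, n, M, d, g, e1, k1, k2⟩ := h
  obtain ⟨p, l', rfl, rfl, rfl⟩ := List.map_eq_cons_iff.1 e1
  rcases d.first Vl.rot with ⟨b, y, c', U1, n1, M1, U2, n2, M2, rfl, hc, h1, h2, rfl, rfl, rfl⟩ |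
    ⟨y, r, U', n', M', hc, hv, h1, rfl, rfl, rfl⟩
  · rw [good_cons, good_add] at g
    rw [Multiset.card_add] at k1
    exact Or.inl ⟨_, _, _, _, _, _, by simpa using g.1, k1,
      by rw [← k2, Multiset.map_add, Multiset.sum_add], fil_of h1 g.2.1, fil_of h2 g.2.2⟩
  · rw [good_cons] at g
    rw [Multiset.card_add, Multiset.coe_card] at k1
    refine Or.inr ⟨r.map (bd c), val c (y :: r), _, _, ⟨y :: r, hv, by simpa using g.1, rfl⟩,
      by simpa using k1, ?_, (fil_of h1 g.2).cast (by simp) le_rfl rfl⟩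
    rw [← k2, Multiset.map_add, Multiset.sum_add]; simp [val]

theorem Fil.dblL : ∀ l : List (G × S), Fil c (l ++ rb c l) 0 0 := by
  intro l
  induction l with
  | nil => exact Fil.nil
  | cons x l ih =>
    exact (Fil.mat (a := []) (e := []) (x := x) ih Fil.nil).cast (by simp) le_rfl (by simp)

theorem pt_rev : ∀ (l : List (W × S)) (u u' : W), Pt c l u u' →
    ∃ l', Pt c l' u' u ∧ l'.map (bd c) = rb c (l.map (bd c)) ∧ val c l' = - val c l := by
  intro l
  induction l with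
  | nil => intro u u' h; exact ⟨[], h.symm, rfl, by simp⟩
  | cons p l ih =>
    rintro u u' ⟨rfl, h2, h3⟩
    obtain ⟨l', k1, k2, k3⟩ := ih _ _ h3
    refine ⟨l' ++ [(c.π p.2 p.1, p.2)], (pth_append _ _ _ _).2 ⟨_, k1, rfl, ?_, c.inv _ _⟩, ?_, ?_⟩
    · rw [c.inv]; exact h2.symm
    · simp [k2, bd, bar, c.pr_step _ _ h2]
    · simp [k3, c.anti _ _ h2]

theorem Fc.rot (h : Fc c (a ++ b) v) : Fc c (b ++ a) v := by
  obtain ⟨l, h1, h2, h3⟩ := h
  obtain ⟨a', b', rfl, ea, eb⟩ := List.map_eq_append_iff.1 h2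
  exact ⟨_, h1.rot _ _, by simp [ea, eb], by rw [← h3]; simp [add_comm]⟩

theorem Fc.rev (h : Fc c w v) : Fc c (rb c w) (-v) := by
  obtain ⟨l, ⟨u, h1⟩, rfl, rfl⟩ := h
  obtain ⟨l', k1, k2, k3⟩ := pt_rev l u u h1
  exact ⟨l', ⟨u, k1⟩, k2, k3⟩

theorem Fil.rev (h : Fil c w t v) : Fil c (rb c w) t (-v) := by
  obtain ⟨l, U, n, M, d, g, rfl, k1, rfl⟩ := h
  refine Fil.cast ?_ rfl k1 rfl
  clear k1
  induction d with
  | nil => simpa using Fil.nil
  | mat a0 b0 c0 x y U1 n1 M1 U2 n2 M2 hc h1 h2 ih1 ih2 =>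
    rw [good_cons, good_add] at g
    have := Fil.mat (a := rb c (c0.map (bd c))) (e := rb c (a0.map (bd c))) (x := bd c x)
      (ih1 g.2.1) ((ih2 g.2.2).cast (by simp) le_rfl rfl)
    have g1 : bd c y = bar c (bd c x) := g.1
    exact this.cast (by simp [g1]) (by simp) (by simp [add_comm])
  | opn a0 r c0 x y U n M hc hv h ih =>
    rw [good_cons] at g
    have g1 : bd c y = bar c (bd c x) := g.1
    have f : Fc c (bar c (bar c (bd c x)) :: rb c (r.map (bd c))) (- val c (y :: r)) := by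
      have f0 : Fc c _ _ := ⟨y :: r, hv, rfl, rfl⟩
      have f1 := f0.rev
      rw [List.map_cons, rb_cons, g1] at f1
      exact f1.rot
    have := Fil.opn (a := rb c (c0.map (bd c))) (e := rb c (a0.map (bd c))) f
      ((ih g.2).cast (by simp) le_rfl rfl)
    exact this.cast (by simp) (by simp) (by simp [val]; abel)

theorem Fc.fil (h : Fc c w v) : Fil c w w.length (-v) := by
  rcases w with _ | ⟨x, r⟩
  · obtain ⟨l, -, e, rfl⟩ := h
    obtain rfl := List.map_eq_nil_iff.1 e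
    simpa using Fil.nil
  · have f : Fc c (bar c x :: rb c r) (-v) := by
      have f1 := h.rev
      rw [rb_cons] at f1
      exact f1.rot
    have := Fil.opn (a := []) (e := r) f ((Fil.dblL (rb c r)).cast (by simp) le_rfl rfl)
    exact this.cast rfl (by simp) (by simp)

end Vale.Agent.P201.T
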