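import Vale.Agent.P201.Tors0

/-! Value preserving reductions of fillings, assuming that small spheres have value zero. -/

namespace Vale.Agent.P201.T

open Vale.Agent.P194

variable {S W G A : Type} [Group G] [AddCommGroup A] {c : Ctx S W G A}

/-- spheres of perimeter at most `N` have value zero -/
def LA (c : Ctx S W G A) (N : ℕ) : Prop :=
  ∀ w v0 t v, Fc c w v0 → Fil c w t v → t + w.length ≤ N → v + v0 = 0

variable {N : ℕ} {w a b e r : List (G × S)} {t t' : ℕ} {v v' : A} {x : G × S}

theorem LA.sph (h : LA c N) (f : Fil c [x, bar c x] t v) (ht : t ≤ N) : v = 0 := by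
  rcases f.first with ⟨b, e', t1, v1, t2, v2, e, p, rfl, h1, h2⟩ | ⟨r, v0, t1, v1, hv, p, rfl, h1⟩
  · rcases b with _ | ⟨z, b⟩
    · simp only [List.nil_append, List.cons.injEq, true_and] at e
      subst e
      rw [h1.of_nil, h2.of_nil, add_zero]
    · simp at e
  · have := h _ _ _ _ (Fc.rot (a := [bar c x]) hv) h1 (by simp; omega)
    rwa [add_comm]

theorem LA.canc0 (h : LA c N) (x : G × S) :
    ∀ (m : ℕ) (e : List (G × S)) (t : ℕ) (v : A), t + e.length ≤ m → t ≤ N →
      Fil c (e ++ [x, bar c x]) t v → Fil c e t v := by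
  intro m
  induction m using Nat.strong_induction_on with
  | _ m ih =>
    intro e t v hm hN f
    rcases e with _ | ⟨z, c1⟩
    · exact Fil.nil.cast rfl (Nat.zero_le _) (h.sph f hN).symm
    · rcases Fil.first (x := z) (e := c1 ++ [x, bar c x]) f with
        ⟨b, c', t1, v1, t2, v2, e, p, rfl, h1, h2⟩ | ⟨r, v0, t1, v1, hv, p, rfl, h1⟩
      · have k : ∀ u, b = c1 ++ u → [x, bar c x] = u ++ bar c z :: c' →
            Fil c (z :: c1) t (v1 + v2) := by
          intro u e1 e2
          subst e1
          rcases u with _ | ⟨y, u⟩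
          · simp only [List.nil_append, List.cons.injEq] at e2
            obtain ⟨rfl, rfl⟩ := e2
            exact (h2.cat h1).cast (by simp) (by omega) (add_comm _ _)
          · simp only [List.cons_append, List.cons.injEq] at e2
            obtain ⟨rfl, e2⟩ := e2
            rcases u with _ | ⟨y, u⟩
            · simp only [List.nil_append, List.cons.injEq] at e2
              obtain ⟨e3, rfl⟩ := e2
              obtain rfl : x = z := by rw [← bar_bar c x, e3, bar_bar]
              exact h1.rot.cast (by simp) (by omega) (by rw [h2.of_nil, add_zero])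
            · simp at e2
        rcases List.append_eq_append_iff.1 e with ⟨u, e1, e2⟩ | ⟨u, e1, e2⟩
        · exact k u e1 e2
        · rcases u with _ | ⟨y, u⟩
          · exact k [] (by simpa using e1.symm) (by simpa using e2.symm)
          · simp only [List.cons_append, List.cons.injEq] at e2
            obtain ⟨rfl, rfl⟩ := e2
            subst e1
            have := ih (t2 + u.length) (by simp at hm; omega) u t2 v2 le_rfl (by omega) h2
            exact (Fil.mat (a := []) h1 this).cast rfl p rfl
      · have := ih (t1 + (r ++ c1).length) (by simp at hm ⊢; omega) (r ++ c1) t1 v1 le_rfl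
          (by omega) (h1.cast (by simp) le_rfl rfl)
        exact (Fil.opn (a := []) hv this).cast rfl p rfl

theorem LA.canc (h : LA c N) (f : Fil c (a ++ x :: bar c x :: e) t v) (ht : t ≤ N) :
    Fil c (a ++ e) t v := by
  have h1 : Fil c ((e ++ a) ++ [x, bar c x]) t v :=
    (Fil.rot (a := a ++ [x, bar c x]) (b := e) (f.cast (by simp) le_rfl rfl)).cast (by simp)
      le_rfl rfl
  exact (h.canc0 x _ _ t v le_rfl ht h1).rot

theorem LA.cancL (h : LA c N) (ht : t ≤ N) :
    ∀ (l a e : List (G × S)), Fil c (a ++ (rb c l ++ (l ++ e))) t v → Fil c (a ++ e) t v := by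
  intro l
  induction l with
  | nil => intro a e f; simpa using f
  | cons x l ih =>
    intro a e f
    have : Fil c ((a ++ rb c l) ++ bar c x :: bar c (bar c x) :: (l ++ e)) t v :=
      f.cast (by simp) le_rfl rfl
    exact ih a e ((h.canc this ht).cast (by simp) le_rfl rfl)

theorem LA.glue (h : LA c N) (f : Fil c (a ++ (r ++ e)) t v) (f' : Fil c (bar c x :: r) t' v')
    (ht : t' + t ≤ N) : Fil c (a ++ x :: e) (t' + t) (-v' + v) := by
  have h1 : Fil c (x :: rb c r) t' (-v') :=
    (Fil.rot (a := rb c r) (b := [x]) (f'.rev.cast (by simp) le_rfl rfl)).cast (by simp) le_rfl rfl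
  have h2 := h1.ins f
  exact (h.cancL ht r (a ++ [x]) e (h2.cast (by simp) le_rfl rfl)).cast (by simp) le_rfl rfl

theorem LA.uniq (h : LA c N) (f : Fil c w t v) (f' : Fil c w t' v') (ht : t' + t ≤ N) :
    v = v' := by
  have := (h.cancL ht w [] [] ((f'.rev.cat f).cast (by simp) le_rfl rfl)).of_nil
  rwa [neg_add_eq_zero, eq_comm] at this

theorem unred {f : List (W × S)} (hv : Vl c f) (hr : ¬ CRed (f.map Prod.snd)) :
    ∃ z l, f.map (bd c) ~r (z :: bar c z :: l.map (bd c)) ∧ Vl c l ∧ val c f = val c l := by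
  simp only [CRed, not_forall] at hr
  obtain ⟨l', ⟨n, rfl⟩, hl⟩ := hr
  obtain ⟨a, z, e, k⟩ := not_red hl
  rw [← List.map_rotate] at k
  obtain ⟨a', v1, e0, -, k⟩ := List.map_eq_append_iff.1 k
  obtain ⟨p, v2, rfl, ep, k⟩ := List.map_eq_cons_iff.1 k
  obtain ⟨q, e', rfl, eq, -⟩ := List.map_eq_cons_iff.1 k
  have e2 : f ~r (p :: q :: (e' ++ a')) := by
    refine List.IsRotated.trans ⟨n, e0⟩ ?_
    simpa using List.isRotated_append (l := a') (l' := p :: q :: e')
  obtain ⟨u, rfl, h2, h3, -, h5⟩ := of_isRotated Vl.rot e2 hv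
  have hq : q = (c.π p.2 p.1, p.2) := Prod.ext h3 (eq.trans ep.symm)
  subst hq
  rw [c.inv] at h5
  refine ⟨bd c p, e' ++ a', ?_, ⟨_, h5⟩, ?_⟩
  · have := e2.map (bd c)
    simpa [bd, bar, c.pr_step _ _ h2] using this
  · have : val c f = val c (p :: (c.π p.2 p.1, p.2) :: (e' ++ a')) :=
      (e2.perm.map c.om).sum_eq
    rw [this]; simp [c.anti _ _ h2]

theorem LA.reduce (h : LA c N) {l : List (W × S)} {U : Multiset (W × S)} {n : ℕ}
    {M : Multiset (Sym2 (W × S))} (d : Der Prod.snd (Vl c) l U n M) : Good c id M →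
    Multiset.card U ≤ N →
    Der Prod.snd (fun l => Vl c l ∧ CRed (l.map Prod.snd)) l U n M ∨
      ∃ t, t < Multiset.card U ∧ Fil c (l.map (bd c)) t (U.map c.om).sum := by
  induction d with
  | nil => exact fun _ _ => Or.inl Der.nil
  | mat a0 b0 c0 x y U1 n1 M1 U2 n2 M2 hc h1 h2 ih1 ih2 =>
    intro g hN
    rw [good_cons, good_add] at g
    have g1 : bd c y = bar c (bd c x) := g.1
    rw [Multiset.card_add] at hN
    rcases ih1 g.2.1 (by omega) with k1 | ⟨t, p, q⟩
    · rcases ih2 g.2.2 (by omega) with k2 | ⟨t, p, q⟩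
      · exact Or.inl (Der.mat _ _ _ _ _ _ _ _ _ _ _ hc k1 k2)
      · exact Or.inr ⟨_, by rw [Multiset.card_add]; omega, ((fil_of h1 g.2.1).mat
          (x := bd c x) (q.cast (List.map_append) le_rfl rfl)).cast (by simp [g1]) le_rfl (by simp)⟩
    · exact Or.inr ⟨_, by rw [Multiset.card_add]; omega, (q.mat (x := bd c x)
        ((fil_of h2 g.2.2).cast (List.map_append) le_rfl rfl)).cast (by simp [g1]) le_rfl (by simp)⟩
  | opn a0 r c0 x y U n M hc hv d ih =>
    intro g hN
    rw [good_cons] at g
    have g1 : bd c y = bar c (bd c x) := g.1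
    rw [Multiset.card_add, Multiset.coe_card] at hN
    have ev : (Multiset.map c.om (((y :: r : List _) : Multiset _) + U)).sum =
        val c (y :: r) + (U.map c.om).sum := by
      rw [Multiset.map_add, Multiset.sum_add]; simp [val]
    by_cases hr : CRed ((y :: r).map Prod.snd)
    · rcases ih g.2 (by omega) with k1 | ⟨t, p, q⟩
      · exact Or.inl (Der.opn _ _ _ _ _ _ _ _ hc ⟨hv, hr⟩ k1)
      · refine Or.inr ⟨_, ?_, (Fil.opn (a := a0.map (bd c)) (e := c0.map (bd c)) (x := bd c x)
          (r := r.map (bd c)) ⟨y :: r, hv, by simp [g1], rfl⟩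
          (q.cast (by simp) le_rfl rfl)).cast (by simp) le_rfl ev.symm⟩
        rw [Multiset.card_add, Multiset.coe_card]; simp; omega
    · obtain ⟨z, l, e2, v1, v2⟩ := unred hv hr
      have v3 : Fil c (z :: bar c z :: l.map (bd c)) l.length (- val c l) :=
        ((Fil.dblL [z]).cat (Fc.fil ⟨l, v1, rfl, rfl⟩)).cast (by simp) (by simp) (by simp)
      have v4 := of_isRotated (P := fun w => Fil c w l.length (- val c l))
        (fun _ _ k => k.rot) e2.symm v3
      have hlen := e2.perm.length_eq
      simp only [List.length_cons, List.length_map] at hlen hN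
      rw [List.map_cons, g1] at v4
      refine Or.inr ⟨_, ?_, (h.glue (a := a0.map (bd c)) (e := c0.map (bd c))
        ((fil_of d g.2).cast (by simp) le_rfl rfl) v4 (by omega)).cast (by simp) le_rfl ?_⟩
      · rw [Multiset.card_add, Multiset.coe_card]; simp; omega
      · rw [ev, v2, neg_neg]

section idx

variable {Λ : Type} {F : Λ → W × S} {nx : Λ → Λ}

theorem pt_map : ∀ (l : List Λ) (u u' : W),
    Pth c.π (fun i => (F i).2) (fun i => (F i).1) l u u' → Pt c (l.map F) u u'
  | [], _, _, h => h
  | _ :: l, _, _, h => ⟨h.1, h.2.1, pt_map l _ _ h.2.2⟩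

/-- the step condition for marked letters -/
abbrev St (c : Ctx S W G A) (F : Λ → W × S) (nx : Λ → Λ) (q : Λ) : Prop :=
  Step c.π (fun i => (F i).2) (fun i => (F i).1) nx q

theorem toFil {l : List Λ} {U : Multiset Λ} {n : ℕ} {M : Multiset (Sym2 Λ)}
    (d : Der (fun i => (F i).2) (ValN nx) l U n M) (g : Good c F M) (hs : ∀ q ∈ U, St c F nx q) :
    Fil c (l.map (fun i => bd c (F i))) (Multiset.card U) (U.map (fun i => c.om (F i))).sum := by
  have d' := d.map (col' := Prod.snd) (Val' := Vl c) F (fun _ _ => rfl) (fun l hl hm => by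
    rcases l with _ | ⟨y, r⟩
    · obtain ⟨u, -⟩ := c.surj 1
      exact ⟨u, rfl⟩
    · exact ⟨_, pt_map _ _ _ (face_pth hl (fun q hq => hs q (hm q hq)))⟩)
  have g' : Good c id (M.map (Sym2.map F)) := by
    intro p q k
    obtain ⟨z, hz, e⟩ := Multiset.mem_map.1 k
    induction z using Sym2.ind with
    | _ i j =>
      rw [Sym2.map_mk, Sym2.eq_iff] at e
      rcases e with ⟨rfl, rfl⟩ | ⟨rfl, rfl⟩
      · exact g i j hz
      · exact g j i (by rwa [Sym2.eq_swap])
  exact (fil_of d' g').cast (by simp) (by simp) (by simp)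

/-- value of a list of marked letters -/
abbrev vF (c : Ctx S W G A) (F : Λ → W × S) (l : List Λ) : A := val c (l.map F)

theorem fc_of {l : List Λ} {u : W} (h : Pth c.π (fun i => (F i).2) (fun i => (F i).1) l u u) :
    Fc c (l.map (fun i => bd c (F i))) (vF c F l) := ⟨l.map F, ⟨u, pt_map _ _ _ h⟩, by simp, rfl⟩

theorem sum_face (l : List Λ) (U : Multiset Λ) :
    (((l : Multiset Λ) + U).map (fun i => c.om (F i))).sum =
      vF c F l + (U.map (fun i => c.om (F i))).sum := by
  rw [Multiset.map_add, Multiset.sum_add]; simp [val, Function.comp_def]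

theorem om_opp {e z : Λ} (h1 : c.π (F e).2 (F e).1 ≠ (F e).1) (h2 : (F e).2 = (F z).2)
    (h3 : (F z).1 = c.π (F e).2 (F e).1) : c.om (F z) = - c.om (F e) := by
  rw [← c.anti _ _ h1, ← h3, h2]

theorem LA.merge [DecidableEq Λ] (h0 : LA c N) {μ : Λ → Λ}
    {v : List Λ} {U : Multiset Λ} {n : ℕ} {M : Multiset (Sym2 Λ)}
    (d : Der (fun i => (F i).2) (ValN nx) v U n M) : ((v : Multiset Λ) + U).Nodup → Cons μ M →
    Good c F M → Multiset.card U ≤ N →
    (∀ q ∈ U, St c F nx q) → ∀ e e', s(e, e') ∈ M → e ∈ U → e' ∈ U →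
    (F e').1 = c.π (F e).2 (F e).1 → ∃ t, t < Multiset.card U ∧
      Fil c (v.map (fun i => bd c (F i))) t (U.map (fun i => c.om (F i))).sum := by
  induction d with
  | nil => simp
  | mat a0 b0 c0 x y U1 n1 M1 U2 n2 M2 hc h1 h2 ih1 ih2 =>
    intro hn hμ g hN hs e e' hm he he' ho
    rw [good_cons, good_add] at g
    have s1 : ∀ q ∈ U1, St c F nx q := fun q k => hs q (by simp [k])
    have s2 : ∀ q ∈ U2, St c F nx q := fun q k => hs q (by simp [k])
    have dj : ∀ p, p ∈ U1 + U2 → p ∉ a0 ++ x :: (b0 ++ y :: c0) := fun p k k' =>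
      Multiset.disjoint_left.1 (Multiset.nodup_add.1 hn).2.2 (Multiset.mem_coe.2 k') k
    have e0 : (a0 ++ x :: (b0 ++ y :: c0)).map (fun i => bd c (F i)) =
        a0.map (fun i => bd c (F i)) ++ bd c (F x) :: (b0.map (fun i => bd c (F i)) ++
          bar c (bd c (F x)) :: c0.map (fun i => bd c (F i))) := by simp [g.1]
    rw [Multiset.card_add] at hN
    rw [e0, Multiset.card_add, Multiset.map_add, Multiset.sum_add]
    simp only [Multiset.mem_cons, Multiset.mem_add, Sym2.eq_iff] at hm
    rcases hm with (⟨rfl, rfl⟩ | ⟨rfl, rfl⟩) | hm | hm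
    · exact absurd (by simp) (dj _ he)
    · exact absurd (by simp) (dj _ he)
    · have k1 : e ∈ U1 := ((h1.mem_of_M e e' hm).1).resolve_left (fun k => dj _ he (by simp [k]))
      have k2 : e' ∈ U1 := ((h1.mem_of_M e' e (by rwa [Sym2.eq_swap])).1).resolve_left
        (fun k => dj _ he' (by simp [k]))
      obtain ⟨t, p, q⟩ := ih1 (Multiset.nodup_of_le (by
          simp only [← Multiset.cons_coe, ← Multiset.coe_add, ← Multiset.singleton_add]
          rw [Multiset.le_iff_count]; intro z; simp only [Multiset.count_add]; omega) hn)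
        (fun p q h => hμ p q (by simp [h])) g.2.1 (by omega) s1 e e' hm k1 k2 ho
      exact ⟨_, by omega, q.mat ((toFil h2 g.2.2 s2).cast (by simp) le_rfl rfl)⟩
    · have k1 : e ∈ U2 := ((h2.mem_of_M e e' hm).1).resolve_left (fun k => dj _ he (by
        rcases List.mem_append.1 k with k | k <;> simp [k]))
      have k2 : e' ∈ U2 := ((h2.mem_of_M e' e (by rwa [Sym2.eq_swap])).1).resolve_left
        (fun k => dj _ he' (by rcases List.mem_append.1 k with k | k <;> simp [k]))
      obtain ⟨t, p, q⟩ := ih2 (Multiset.nodup_of_le (by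
          simp only [← Multiset.cons_coe, ← Multiset.coe_add, ← Multiset.singleton_add]
          rw [Multiset.le_iff_count]; intro z; simp only [Multiset.count_add]; omega) hn)
        (fun p q h => hμ p q (by simp [h])) g.2.2 (by omega) s2 e e' hm k1 k2 ho
      exact ⟨_, by omega, (toFil h1 g.2.1 s1).mat (q.cast (by simp) le_rfl rfl)⟩
  | opn a0 r c0 x y U n M hc hv h ih =>
    intro hn hμ g hN hs
    rw [good_cons] at g
    have s2 : ∀ q ∈ U, St c F nx q := fun q k => hs q (by simp [k])
    have s1 : ∀ q ∈ y :: r, St c F nx q := fun q k =>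
      hs q (Multiset.mem_add.2 (Or.inl (Multiset.mem_coe.2 k)))
    have dj : ∀ p, p ∈ ((y :: r : List Λ) : Multiset Λ) + U → p ∉ a0 ++ x :: c0 := fun p k k' =>
      Multiset.disjoint_left.1 (Multiset.nodup_add.1 hn).2.2 (Multiset.mem_coe.2 k') k
    have c1 : Cons μ M := fun p q h => hμ p q (by simp [h])
    have hn1 : (y ::ₘ (((a0 ++ (r ++ c0) : List Λ) : Multiset Λ) + U)).Nodup :=
      Multiset.nodup_of_le (by
        simp only [← Multiset.cons_coe, ← Multiset.coe_add, ← Multiset.singleton_add]
        rw [Multiset.le_iff_count]; intro z; simp only [Multiset.count_add]; omega) hn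
    rw [Multiset.nodup_cons] at hn1
    obtain ⟨hy, hn2⟩ := hn1
    have e0 : (a0 ++ x :: c0).map (fun i => bd c (F i)) =
        a0.map (fun i => bd c (F i)) ++ bd c (F x) :: c0.map (fun i => bd c (F i)) := by simp
    have fp := face_pth hv s1
    rw [Multiset.card_add, Multiset.coe_card] at hN
    rw [e0, Multiset.card_add, Multiset.coe_card, sum_face]
    have fc : ∀ r' : List Λ, Pth c.π (fun i => (F i).2) (fun i => (F i).1) (y :: r') (F y).1 (F y).1 →
        Fc c (bar c (bd c (F x)) :: r'.map (fun i => bd c (F i))) (vF c F (y :: r')) := by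
      intro r' k
      have := fc_of k
      rwa [List.map_cons, g.1] at this
    have key : ∀ e e', s(e, e') ∈ M → ∀ r1 r2, r = r1 ++ e :: r2 → e' ∉ r1 →
        e' ∈ ((y :: r : List Λ) : Multiset Λ) + U → (F e').1 = c.π (F e).2 (F e).1 →
        ∃ t, t < (y :: r).length + Multiset.card U ∧
          Fil c (a0.map (fun i => bd c (F i)) ++ bd c (F x) :: c0.map (fun i => bd c (F i))) t
            (vF c F (y :: r) + (U.map (fun i => c.om (F i))).sum) := by
      intro e e' hm r1 r2 er n1 he' ho
      subst er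
      have h' : Der (fun i => (F i).2) (ValN nx) (e :: (r2 ++ (c0 ++ (a0 ++ r1)))) U n M :=
        (Der.rot (a := a0 ++ r1) (b := e :: (r2 ++ c0)) (h.cast (by simp) rfl rfl rfl)).cast
          (by simp) rfl rfl rfl
      rw [← List.cons_append, pth_append] at fp
      obtain ⟨u1, f1, f2, f2', f3⟩ := fp
      have g2 := g.2
      rcases h'.first cyc_rot with
        ⟨b, z, c', U1, n1', M1, U2, n2, M2, e1, hc', d1, d2, rfl, rfl, rfl⟩ |
        ⟨z, r'', U', n', M', hc', hv', d1, rfl, rfl, rfl⟩
      · have z1 : z = e' := (c1 e z (by simp)).symm.trans (c1 e e' hm)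
        subst z1
        rw [good_cons, good_add] at g2
        have m1 : z ∈ r2 ++ (c0 ++ (a0 ++ r1)) := by rw [e1]; simp
        have m2 : z ∈ r2 := by
          have := dj z he'
          simp only [List.mem_append, List.mem_cons, not_or] at m1 this
          tauto
        obtain ⟨r3, r4, rfl⟩ := List.append_of_mem m2
        have nd : (r3 ++ z :: (r4 ++ (c0 ++ (a0 ++ r1)))).Nodup := by
          rw [← Multiset.coe_nodup]
          refine Multiset.nodup_of_le ?_ hn2
          simp only [← Multiset.cons_coe, ← Multiset.coe_add, ← Multiset.singleton_add]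
          rw [Multiset.le_iff_count]; intro z; simp only [Multiset.count_add]; omega
        obtain ⟨rfl, rfl⟩ := split_uniq nd (by simpa using e1)
        rw [pth_append] at f3
        obtain ⟨u2, f7, f4, -, f5⟩ := f3
        beta_reduce at f2 f2' f4 f5 f7 hc'
        rw [← f4, ho, ← hc', c.inv, f2] at f5
        rw [← f4, ho, f2] at f7
        have cw := fc (r1 ++ r4) ((pth_append (y :: r1) r4 _ _).2 ⟨u1, f1, f5⟩)
        have p := toFil d2 g2.2.2 (fun q k => s2 q (by simp [k]))
        have p0 := toFil d1 g2.2.1 (fun q k => s2 q (by simp [k]))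
        have z0 := h0 _ _ _ _ (fc_of f7) p0 (by simp at hN ⊢; omega)
        have z2 := om_opp (c := c) (by rw [f2]; exact f2') hc' ho
        have p' : Fil c (a0.map (fun i => bd c (F i)) ++ ((r1 ++ r4).map (fun i => bd c (F i)) ++
            c0.map (fun i => bd c (F i)))) _ _ :=
          (Fil.rot (a := (r4 ++ c0).map (fun i => bd c (F i)))
            (b := (a0 ++ r1).map (fun i => bd c (F i))) (p.cast (by simp) le_rfl rfl)).cast
            (by simp) le_rfl rfl
        refine ⟨_, by simp; omega, (Fil.opn cw p').cast rfl le_rfl ?_⟩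
        simp only [vF, List.map_cons, List.map_append, val_cons, val_append, Multiset.map_add,
          Multiset.sum_add, z2, eq_neg_of_add_eq_zero_left z0]
        abel
      · have z1 : z = e' := (c1 e z (by simp)).symm.trans (c1 e e' hm)
        subst z1
        rw [good_cons] at g2
        obtain ⟨-, -, f6⟩ := face_pth hv' (fun q k =>
          s2 q (Multiset.mem_add.2 (Or.inl (Multiset.mem_coe.2 k))))
        beta_reduce at f2 f2' f3 f6 hc'
        rw [ho, ← hc', c.inv, f2] at f6
        have cw := fc (r1 ++ (r'' ++ r2)) ((pth_append (y :: r1) _ _ _).2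
            ⟨u1, f1, (pth_append _ _ _ _).2 ⟨_, f6, f3⟩⟩)
        have p := toFil d1 g2.2 (fun q k => s2 q (by simp [k]))
        have z2 := om_opp (c := c) (by rw [f2]; exact f2') hc' ho
        have p' : Fil c (a0.map (fun i => bd c (F i)) ++
            ((r1 ++ (r'' ++ r2)).map (fun i => bd c (F i)) ++ c0.map (fun i => bd c (F i)))) _ _ :=
          (Fil.rot (a := (r'' ++ (r2 ++ c0)).map (fun i => bd c (F i)))
            (b := (a0 ++ r1).map (fun i => bd c (F i)))
            (p.cast (by simp) le_rfl rfl)).cast (by simp) le_rfl rfl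
        refine ⟨_, by simp; omega, (Fil.opn cw p').cast rfl le_rfl ?_⟩
        rw [sum_face]
        simp only [vF, List.map_cons, List.map_append, val_cons, val_append, z2]
        abel
    intro e e' hm he he' ho
    simp only [Multiset.mem_cons, Sym2.eq_iff] at hm
    rcases hm with (⟨rfl, rfl⟩ | ⟨rfl, rfl⟩) | hm
    · exact absurd (by simp) (dj _ he)
    · exact absurd (by simp) (dj _ he')
    have hm' : s(e', e) ∈ M := by rwa [Sym2.eq_swap]
    have ho' : (F e).1 = c.π (F e').2 (F e').1 := by
      rw [ho, ← (h.mem_of_M e e' hm).2, c.inv]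
    have ny : ∀ p q, s(p, q) ∈ M → p ≠ y := by
      rintro p q k rfl
      exact hy (by rw [Multiset.mem_add, Multiset.mem_coe]; exact (h.mem_of_M _ _ k).1)
    by_cases k1 : e ∈ r
    · obtain ⟨r1, r2, er⟩ := List.append_of_mem k1
      by_cases k2 : e' ∈ r1
      · obtain ⟨r3, r4, er'⟩ := List.append_of_mem k2
        refine key e' e hm' r3 (r4 ++ e :: r2) (by simp [er, er']) (fun k => ?_) he ho'
        have nd := Multiset.nodup_iff_count_le_one.1 hn2 e
        have := List.count_pos_iff.2 k
        subst er er'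
        simp only [← Multiset.cons_coe, ← Multiset.coe_add, Multiset.count_add,
          Multiset.count_cons_self, Multiset.coe_count] at nd
        omega
      · exact key e e' hm r1 r2 er k2 he' ho
    · by_cases k2 : e' ∈ r
      · obtain ⟨r1, r2, er⟩ := List.append_of_mem k2
        exact key e' e hm' r1 r2 er (fun k => k1 (by simp [er, k])) he ho'
      · have a1 : e ∈ U := by
          have := ny e e' hm
          simpa [this, k1] using he
        have a2 : e' ∈ U := by
          have := ny e' e hm'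
          simpa [this, k2] using he'
        obtain ⟨t, p, q⟩ := ih hn2 c1 g.2 (by omega) s2 e e' hm a1 a2 ho
        exact ⟨_, by simp; omega, Fil.opn (fc r fp) (q.cast (by simp) le_rfl rfl)⟩

/-- an originating match at a letter of the closed boundary path gives a smaller sphere -/
theorem LA.push [DecidableEq Λ] (h0 : LA c N) {μ : Λ → Λ}
    {v : List Λ} {U : Multiset Λ} {n : ℕ} {M : Multiset (Sym2 Λ)}
    (d : Der (fun i => (F i).2) (ValN nx) v U n M) (hn : ((v : Multiset Λ) + U).Nodup)
    (hμ : Cons μ M) (g : Good c F M) (hN : Multiset.card U + v.length ≤ N + 1)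
    (hs : ∀ q ∈ U, St c F nx q) {c0 : W}
    (hp : Pth c.π (fun i => (F i).2) (fun i => (F i).1) v c0 c0) :
    ∀ e e', s(e, e') ∈ M → e ∈ v → (F e').1 = c.π (F e).2 (F e).1 →
      (U.map (fun i => c.om (F i))).sum + vF c F v = 0 := by
  have key : ∀ e e', s(e, e') ∈ M → ∀ r1 r2, v = r1 ++ e :: r2 → e' ∉ r1 →
      (F e').1 = c.π (F e).2 (F e).1 → (U.map (fun i => c.om (F i))).sum + vF c F v = 0 := by
    intro e e' hm r1 r2 er n1 ho
    subst er
    have h' : Der (fun i => (F i).2) (ValN nx) (e :: (r2 ++ r1)) U n M := d.rot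
    rw [pth_append] at hp
    obtain ⟨u1, f1, f2, f2', f3⟩ := hp
    rcases h'.first cyc_rot with
      ⟨b, z, c', U1, n1', M1, U2, n2, M2, e1, hc', d1, d2, rfl, rfl, rfl⟩ |
      ⟨z, r'', U', n', M', hc', hv', d1, rfl, rfl, rfl⟩
    · have z1 : z = e' := (hμ e z (by simp)).symm.trans (hμ e e' hm)
      subst z1
      rw [good_cons, good_add] at g
      have m1 : z ∈ r2 ++ r1 := by rw [e1]; simp
      have m2 : z ∈ r2 := by simpa [n1] using m1
      obtain ⟨r3, r4, rfl⟩ := List.append_of_mem m2
      have nd : (r3 ++ z :: (r4 ++ r1)).Nodup := by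
        rw [← Multiset.coe_nodup]
        refine Multiset.nodup_of_le ?_ hn
        simp only [← Multiset.cons_coe, ← Multiset.coe_add, ← Multiset.singleton_add]
        rw [Multiset.le_iff_count]; intro z; simp only [Multiset.count_add]; omega
      obtain ⟨rfl, rfl⟩ := split_uniq nd (by simpa using e1)
      rw [pth_append] at f3
      obtain ⟨u2, f7, f4, -, f5⟩ := f3
      beta_reduce at f2 f2' f4 f5 f7 hc'
      rw [← f4, ho, ← hc', c.inv, f2] at f5
      rw [← f4, ho, f2] at f7
      have p := toFil d2 g.2.2 (fun q k => hs q (by simp [k]))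
      have p0 := toFil d1 g.2.1 (fun q k => hs q (by simp [k]))
      have z0 := h0 _ _ _ _ (fc_of f7) p0 (by simp at hN ⊢; omega)
      have z1 := h0 _ _ _ _ (fc_of ((pth_append r4 r1 _ _).2 ⟨c0, f5, f1⟩)) p
        (by simp at hN ⊢; omega)
      have z2 := om_opp (c := c) (by rw [f2]; exact f2') hc' ho
      simp only [vF, List.map_cons, List.map_append, val_cons, val_append, Multiset.map_add,
        Multiset.sum_add, z2, eq_neg_of_add_eq_zero_left z0, eq_neg_of_add_eq_zero_left z1]
      abel
    · have z1 : z = e' := (hμ e z (by simp)).symm.trans (hμ e e' hm)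
      subst z1
      rw [good_cons] at g
      obtain ⟨-, -, f6⟩ := face_pth hv' (fun q k =>
        hs q (Multiset.mem_add.2 (Or.inl (Multiset.mem_coe.2 k))))
      beta_reduce at f2 f2' f3 f6 hc'
      rw [ho, ← hc', c.inv, f2] at f6
      have p := toFil d1 g.2 (fun q k => hs q (by simp [k]))
      have z1 := h0 _ _ _ _ (fc_of ((pth_append r'' _ _ _).2
        ⟨_, f6, (pth_append _ _ _ _).2 ⟨_, f3, f1⟩⟩)) p (by simp at hN ⊢; omega)
      have z2 := om_opp (c := c) (by rw [f2]; exact f2') hc' ho
      rw [sum_face]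
      simp only [vF, List.map_cons, List.map_append, val_cons, val_append, z2,
        eq_neg_of_add_eq_zero_left z1]
      abel
  intro e e' hm he ho
  have hm' : s(e', e) ∈ M := by rwa [Sym2.eq_swap]
  have ho' : (F e).1 = c.π (F e').2 (F e').1 := by rw [ho, ← (d.mem_of_M e e' hm).2, c.inv]
  obtain ⟨r1, r2, er⟩ := List.append_of_mem he
  by_cases k2 : e' ∈ r1
  · obtain ⟨r3, r4, er'⟩ := List.append_of_mem k2
    refine key e' e hm' r3 (r4 ++ e :: r2) (by simp [er, er']) (fun k => ?_) ho'
    have nd := Multiset.nodup_iff_count_le_one.1 hn e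
    have := List.count_pos_iff.2 k
    subst er er'
    simp only [← Multiset.cons_coe, ← Multiset.coe_add, Multiset.count_add,
      Multiset.count_cons_self, Multiset.coe_count] at nd
    omega
  · exact key e e' hm r1 r2 er k2 ho

end idx

end Vale.Agent.P201.T
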