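import Vale.Agent.P201.Tors1

/-! Small spheres have value zero when no small reduced diagram is drawn in the graph. -/

namespace Vale.Agent.P201.T

open Vale.Agent.P194

variable {S W G A : Type} [Group G] [AddCommGroup A] {c : Ctx S W G A}

/-- the dart of a marked letter -/
def fp (p : S × W × ℕ × ℕ) : W × S := (p.2.1, p.1)

theorem lf_dart : ∀ (l : List (W × S)) (u u' : W) (i e : ℕ), Pt c l u u' →
    (lf c.π u i e (l.map Prod.snd)).map fp = l
  | [], _, _, _, _, _ => rfl
  | [p], _, _, _, _, h => by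
    obtain ⟨rfl, -⟩ := h
    rfl
  | p :: q :: l, u, u', i, e, h => by
    obtain ⟨rfl, -, h⟩ := h
    have := lf_dart (q :: l) _ u' (i + 1) e h
    simp only [List.map_cons, lf] at this ⊢
    rw [this]; rfl

theorem lf_faceV {y : W × S} {r : List (W × S)} (h : Vl c (y :: r))
    (hr : CRed ((y :: r).map Prod.snd)) (t : ℕ) :
    ∃ (y' : S × W × ℕ × ℕ) (r' : List (S × W × ℕ × ℕ)), fp y' = y ∧ r'.map fp = r ∧
      Cycle.Chain (Nx c.π) ((y' :: r' : List _) : Cycle _) ∧
      (y' :: r').map (fun p => p.2.2.1) = List.range' t (r.length + 1) ∧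
      (y' :: r').countP (fun p => decide (p.2.2.2 ≠ p.2.2.1 + 1)) ≤ 1 := by
  obtain ⟨u, h⟩ := h
  obtain ⟨h1, h2⟩ := pth_walk _ _ _ h
  have h3 := lf_dart _ _ _ t t h
  rcases r with _ | ⟨s, r⟩
  · exact absurd h2 h1.1
  · simp only [List.map_cons] at h1 h2 h3 hr
    rw [lf, List.map_cons, List.cons.injEq] at h3
    refine ⟨(y.2, u, t, t + 1), lf c.π (c.π y.2 u) (t + 1) t (s.2 :: r.map Prod.snd), h3.1, h3.2,
      ?_, (lf_id (π := c.π) (y.2 :: s.2 :: r.map Prod.snd) u t t).trans (by simp),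
      lf_cnt (y.2 :: s.2 :: r.map Prod.snd) u t t⟩
    rw [Cycle.chain_coe_cons]
    refine lf_chain (y.2 :: s.2 :: r.map Prod.snd) u t t (y.2, u, t, t + 1) (by simp) h1 ?_
      h2.symm rfl
    have a := hr _ (List.IsRotated.refl _)
    have b := hr ((s.2 :: r.map Prod.snd) ++ [y.2])
      (List.isRotated_append (l := [y.2]) (l' := s.2 :: r.map Prod.snd))
    exact List.isChain_cons_cons.2 ⟨(List.isChain_cons_cons.1 a).1, b⟩

theorem liftV {l : List (W × S)} {U : Multiset (W × S)} {n : ℕ} {M : Multiset (Sym2 (W × S))}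
    (d : Der Prod.snd (fun l => Vl c l ∧ CRed (l.map Prod.snd)) l U n M) : Good c id M →
    ∀ (v : List (S × W × ℕ × ℕ)) (t : ℕ), v.map (fun p => bd c (fp p)) = l.map (bd c) →
      ∃ U' M', Der Prod.fst (fun l => Cycle.Chain (Nx c.π) (l : Cycle _)) v U' n M' ∧
        Good c fp M' ∧ U'.map fp = U ∧
        U'.map (fun p => p.2.2.1) = (List.range' t (Multiset.card U) : Multiset ℕ) ∧
        U'.countP (fun p => p.2.2.2 ≠ p.2.2.1 + 1) ≤ n := by
  induction d with
  | nil =>
    intro _ v t e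
    obtain rfl := List.map_eq_nil_iff.1 e
    exact ⟨0, 0, Der.nil, good_zero, by simp, by simp, by simp⟩
  | mat a0 b0 c0 x y U1 n1 M1 U2 n2 M2 hc h1 h2 ih1 ih2 =>
    intro g v t e
    rw [good_cons, good_add] at g
    rw [List.map_append, List.map_cons, List.map_append, List.map_cons] at e
    obtain ⟨a, v1, rfl, ea, e⟩ := List.map_eq_append_iff.1 e
    obtain ⟨x', v2, rfl, ex, e⟩ := List.map_eq_cons_iff.1 e
    obtain ⟨b, v3, rfl, eb, e⟩ := List.map_eq_append_iff.1 e
    obtain ⟨y', c', rfl, ey, ec⟩ := List.map_eq_cons_iff.1 e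
    obtain ⟨U3, M3, p1, p4, p5, p2, p3⟩ := ih1 g.2.1 b t eb
    obtain ⟨U4, M4, q1, q4, q5, q2, q3⟩ := ih2 g.2.2 (a ++ c') (t + Multiset.card U1)
      (by simp [ea, ec])
    have k : bd c (fp y') = bar c (bd c (fp x')) := by rw [ex, ey]; exact g.1
    refine ⟨_, _, Der.mat a b c' x' y' _ _ _ _ _ _ (snd_of_bd k) p1 q1,
      good_cons.2 ⟨k, good_add.2 ⟨p4, q4⟩⟩, by rw [Multiset.map_add, p5, q5], ?_, ?_⟩
    · rw [Multiset.map_add, p2, q2, Multiset.card_add, Multiset.coe_add]
      congr 1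
      simpa using List.range'_append (s := t) (m := Multiset.card U1) (n := Multiset.card U2)
        (step := 1)
    · rw [Multiset.countP_add]; omega
  | opn a0 r c0 x y U n M hc hv h ih =>
    intro g v t e
    rw [good_cons] at g
    rw [List.map_append, List.map_cons] at e
    obtain ⟨a, v1, rfl, ea, e⟩ := List.map_eq_append_iff.1 e
    obtain ⟨x', c', rfl, ex, ec⟩ := List.map_eq_cons_iff.1 e
    obtain ⟨y', r', e1, e2, e3, e4, e5⟩ := lf_faceV hv.1 hv.2 t
    obtain ⟨U3, M3, p1, p4, p5, p2, p3⟩ := ih g.2 (a ++ (r' ++ c')) (t + (r.length + 1))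
      (by simp [ea, ec, ← e2])
    have k : bd c (fp y') = bar c (bd c (fp x')) := by rw [ex, e1]; exact g.1
    refine ⟨_, _, Der.opn a r' c' x' y' _ _ _ (snd_of_bd k) e3 p1, good_cons.2 ⟨k, p4⟩, ?_, ?_, ?_⟩
    · rw [Multiset.map_add, p5, Multiset.map_coe, List.map_cons, e1, e2]
    · rw [Multiset.map_add, p2, Multiset.map_coe, e4, Multiset.card_add, Multiset.coe_add,
        Multiset.coe_card]
      congr 1
      simpa using List.range'_append (s := t) (m := r.length + 1) (n := Multiset.card U)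
        (step := 1)
    · rw [Multiset.countP_add, Multiset.coe_countP]; omega

theorem toNatV {l : List (W × S)} {U : Multiset (W × S)} {n : ℕ} {M : Multiset (Sym2 (W × S))}
    (d : Der Prod.snd (fun l => Vl c l ∧ CRed (l.map Prod.snd)) l U n M) (g : Good c id M)
    (hl : l ≠ []) (hv : Vl c l) (hr : CRed (l.map Prod.snd)) :
    ∃ (F : ℕ → W × S) (nx : ℕ → ℕ) (M' : Multiset (Sym2 ℕ)),
      Der (fun i => (F i).2) (ValN nx) (List.range' (Multiset.card U) l.length)
        (Multiset.range (Multiset.card U)) n M' ∧ Good c F M' ∧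
      (List.range' (Multiset.card U) l.length).map F = l ∧
      (Multiset.range (Multiset.card U)).map F = U ∧
      ValN nx (List.range' (Multiset.card U) l.length) ∧
      (∀ i < Multiset.card U + l.length, nx i < Multiset.card U + l.length ∧ St c F nx i ∧
        (F (nx i)).2 ≠ (F i).2) ∧
      (∀ i < Multiset.card U + l.length, ∀ j < Multiset.card U + l.length, nx i = nx j → i = j) ∧
      ((Finset.range (Multiset.card U + l.length)).filter (fun i => nx i ≠ i + 1)).card ≤
        n + 1 := by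
  classical
  set T := Multiset.card U with hT
  obtain ⟨y, r, rfl⟩ := List.exists_cons_of_ne_nil hl
  obtain ⟨y', r', e1, e2, e3, hid, e5⟩ := lf_faceV hv hr T
  have ev : (y' :: r').map fp = y :: r := by simp [e1, e2]
  obtain ⟨U', M', d', g', p1, p2, p3⟩ := liftV d g (y' :: r') 0 (by rw [← ev]; simp)
  set v := y' :: r' with hv
  rw [← hT] at p2
  rw [List.length_cons]
  have hall : ((v : Multiset (S × W × ℕ × ℕ)) + U').map (fun p => p.2.2.1) =
      Multiset.range (T + (r.length + 1)) := by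
    rw [Multiset.map_add, Multiset.map_coe, hid, p2, add_comm, Multiset.coe_add]
    have := List.range'_append (s := 0) (m := T) (n := r.length + 1) (step := 1)
    simp only [one_mul, zero_add] at this
    rw [this, ← List.range_eq_range']; rfl
  have hinj := Multiset.inj_on_of_nodup_map (hall ▸ Multiset.nodup_range _ :
    (((v : Multiset (S × W × ℕ × ℕ)) + U').map (fun p => p.2.2.1)).Nodup)
  let E : ℕ → S × W × ℕ × ℕ := fun i =>
    if h : ∃ p ∈ (v : Multiset (S × W × ℕ × ℕ)) + U', p.2.2.1 = i then h.choose else y'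
  have hF : ∀ p, (p ∈ v ∨ p ∈ U') → E p.2.2.1 = p := by
    intro p hp
    have hp' : p ∈ (v : Multiset (S × W × ℕ × ℕ)) + U' := by simpa using hp
    have h : ∃ q ∈ (v : Multiset (S × W × ℕ × ℕ)) + U', q.2.2.1 = p.2.2.1 := ⟨p, hp', rfl⟩
    simp only [E, dif_pos h]
    exact hinj _ h.choose_spec.1 _ hp' h.choose_spec.2
  have hU : ∀ i < T + (r.length + 1), ∃ p, (p ∈ v ∨ p ∈ U') ∧ p.2.2.1 = i := by
    intro i hi
    have : i ∈ ((v : Multiset (S × W × ℕ × ℕ)) + U').map (fun p => p.2.2.1) := by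
      rw [hall]; simp [hi]
    obtain ⟨p, k1, k2⟩ := Multiset.mem_map.1 this
    exact ⟨p, by simpa using k1, k2⟩
  have hU' : ∀ p, (p ∈ v ∨ p ∈ U') → p.2.2.1 < T + (r.length + 1) := by
    intro p hp
    have : p.2.2.1 ∈ ((v : Multiset (S × W × ℕ × ℕ)) + U').map (fun p => p.2.2.1) :=
      Multiset.mem_map_of_mem _ (by simpa using hp)
    rw [hall] at this; simpa using this
  have nb : ∀ p, (p ∈ v ∨ p ∈ U') → (∃ q, (q ∈ v ∨ q ∈ U') ∧ Nx c.π p q) ∧
      ∃ q, (q ∈ v ∨ q ∈ U') ∧ Nx c.π q p := by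
    rintro p (k | k)
    · obtain ⟨⟨q, a, b⟩, ⟨q', a', b'⟩⟩ := cyc_nbr e3 k
      exact ⟨⟨q, Or.inl a, b⟩, ⟨q', Or.inl a', b'⟩⟩
    · obtain ⟨⟨q, a, b⟩, ⟨q', a', b'⟩⟩ := d'.nbr (r := Nx c.π) (fun _ h => h) p k
      exact ⟨⟨q, Or.inr a, b⟩, ⟨q', Or.inr a', b'⟩⟩
  have hstep : ∀ i < T + (r.length + 1), (E i).2.2.2 < T + (r.length + 1) ∧
      St c (fun i => fp (E i)) (fun i => (E i).2.2.2) i ∧
      (fp (E (E i).2.2.2)).2 ≠ (fp (E i)).2 := by
    intro i hi
    obtain ⟨p, hp, rfl⟩ := hU i hi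
    obtain ⟨⟨q, hq, a, b, e, f⟩, -⟩ := nb p hp
    simp only [St, Step, fp]
    rw [hF p hp, ← e, hF q hq]
    exact ⟨hU' q hq, ⟨a.symm, b⟩, f⟩
  have hch : ∀ l : List (S × W × ℕ × ℕ), Cycle.Chain (Nx c.π) (l : Cycle _) →
      (∀ p ∈ l, p ∈ v ∨ p ∈ U') → ValN (fun i => (E i).2.2.2) (l.map (fun p => p.2.2.1)) := by
    intro l hl hm
    unfold ValN
    rw [← Cycle.map_coe, Cycle.chain_map]
    rcases l with _ | ⟨y, r⟩
    · trivial
    · rw [Cycle.chain_coe_cons] at hl ⊢
      refine (List.IsChain.iff_mem.1 hl).imp ?_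
      rintro p q ⟨k1, -, k3⟩
      have : p ∈ v ∨ p ∈ U' := hm p (by simp at k1 ⊢; tauto)
      beta_reduce
      rw [hF p this]; exact k3.2.2.1
  refine ⟨fun i => fp (E i), fun i => (E i).2.2.2, M'.map (Sym2.map (fun p => p.2.2.1)), ?_, ?_,
    ?_, ?_, hid ▸ hch v e3 (fun p k => Or.inl k), hstep, ?_, ?_⟩
  · exact (d'.map (fun p => p.2.2.1) (fun p hp => by beta_reduce; rw [hF p hp]; rfl)
      (fun l hl hm => hch l hl (fun p k => Or.inr (hm p k)))).cast
      hid (by rw [p2, ← List.range_eq_range']; rfl) rfl rfl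
  · intro i j k
    obtain ⟨z, hz, e⟩ := Multiset.mem_map.1 k
    induction z using Sym2.ind with
    | _ p q =>
      have hz' : s(q, p) ∈ M' := by rwa [Sym2.eq_swap]
      have m1 := hF p (d'.mem_of_M p q hz).1
      have m2 := hF q (d'.mem_of_M q p hz').1
      rw [Sym2.map_mk, Sym2.eq_iff] at e
      rcases e with ⟨rfl, rfl⟩ | ⟨rfl, rfl⟩
      · simp only [m1, m2]; exact g' p q hz
      · simp only [m1, m2]; exact g' q p hz'
  · rw [← hid, List.map_map, ← ev]
    exact List.map_congr_left (fun p hp => by simp [hF p (Or.inl hp)])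
  · have : Multiset.range T = U'.map (fun p => p.2.2.1) := by
      rw [p2, ← List.range_eq_range']; rfl
    rw [this, Multiset.map_map, ← p1]
    exact Multiset.map_congr rfl (fun p hp => by simp [hF p (Or.inr hp)])
  · have := Finset.injOn_of_surjOn_of_card_le (s := Finset.range (T + (r.length + 1)))
      (t := Finset.range (T + (r.length + 1)))
      (fun i => (E i).2.2.2) (fun i hi => by simpa using (hstep i (by simpa using hi)).1)
      (fun j hj => by
        obtain ⟨p, hp, rfl⟩ := hU j (by simpa using hj)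
        obtain ⟨-, q, hq, a, b, e, f⟩ := nb p hp
        exact ⟨q.2.2.1, by simpa using hU' q hq, by simp only [hF q hq, e]⟩) le_rfl
    intro i hi j hj e
    exact this (by simpa using hi) (by simpa using hj) e
  · have e1 : Multiset.countP (fun p : S × W × ℕ × ℕ => p.2.2.2 ≠ p.2.2.1 + 1)
        ((v : Multiset (S × W × ℕ × ℕ)) + U') =
        Multiset.countP (fun i => (E i).2.2.2 ≠ i + 1)
          (((v : Multiset (S × W × ℕ × ℕ)) + U').map (fun p => p.2.2.1)) := by
      rw [Multiset.countP_map, ← Multiset.countP_eq_card_filter]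
      exact Multiset.countP_congr rfl (fun p hp => by rw [hF p (by simpa using hp)])
    rw [hall, Multiset.countP_add, Multiset.coe_countP,
      Multiset.countP_eq_card_filter _ (Multiset.range _)] at e1
    have e2 : ((Finset.range (T + (r.length + 1))).filter (fun i => (E i).2.2.2 ≠ i + 1)).card =
      Multiset.card (Multiset.filter (fun i => (E i).2.2.2 ≠ i + 1)
        (Multiset.range (T + (r.length + 1)))) := rfl
    beta_reduce
    omega

variable {V : Type} {π : S → V → V}

/-- the graph of the context covers the graph `π` -/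
structure Cov (c : Ctx S W G A) (π : S → V → V) (pv : W → V) : Prop where
  step : ∀ s a, c.π s a ≠ a → π s (pv a) = pv (c.π s a) ∧ pv (c.π s a) ≠ pv a
  ext : ∀ a b, c.pr a = c.pr b → pv a = pv b → a = b

theorem Cov.walk {pv : W → V} (h : Cov c π pv) : ∀ (l : List (W × S)) (u u' : W), Pt c l u u' →
    Walk π (pv u) (l.map Prod.snd) ∧ run π (pv u) (l.map Prod.snd) = pv u'
  | [], _, _, k => ⟨trivial, congrArg pv k⟩
  | p :: l, u, u', k => by
    obtain ⟨a, b⟩ := h.step _ _ k.2.1
    have := h.walk l _ _ k.2.2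
    simp only [List.map_cons, walk_cons, run_cons, a]
    exact ⟨⟨b, this.1⟩, this.2⟩

theorem Cov.long {pv : W → V} (h : Cov c π pv) {g : ℕ} (hg : Girth π g) (l : List (W × S))
    (k : Vl c l ∧ CRed (l.map Prod.snd)) (hl : l ≠ []) : g + 1 ≤ l.length := by
  obtain ⟨⟨u, k1⟩, k2⟩ := k
  have := face_long hg (l.map Prod.snd) ⟨⟨_, h.walk l u u k1⟩, k2⟩ (by simpa using hl)
  simpa using this

theorem LA.succ {pv : W → V} (h : Cov c π pv) {g K q N : ℕ} {c0 : V} (hg : Girth π g)
    (hc : NoCfg π c0 g (17 * K + 2) q) (h0 : LA c N) (hN : N + 1 ≤ K * (g + 1)) :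
    LA c (N + 1) := by
  classical
  rintro _ _ t v ⟨l, hv, rfl, rfl⟩ f ht
  rw [List.length_map] at ht
  by_cases hl : l = []
  · subst hl; simpa using f.of_nil
  have hl0 : 0 < l.length := List.length_pos_iff.2 hl
  by_cases hr : CRed (l.map Prod.snd)
  swap
  · obtain ⟨z, l', e, v1, v2⟩ := unred hv hr
    have f1 := of_isRotated (P := fun w => Fil c w t v) (fun _ _ k => k.rot) e f
    have hlen := e.perm.length_eq
    simp only [List.length_cons, List.length_map] at hlen
    rw [v2]
    exact h0 _ _ _ _ ⟨l', v1, rfl, rfl⟩ (h0.canc (a := []) f1 (by omega)) (by simp; omega)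
  obtain ⟨U, n, M, d, g0, k1, rfl⟩ := f.get l rfl
  rcases h0.reduce d g0 (by omega) with d1 | ⟨t', p, q⟩
  swap
  · exact h0 _ _ _ _ ⟨l, hv, rfl, rfl⟩ q (by simp; omega)
  obtain ⟨F, nx, M', d', g', a1, a0, a5, a2, a3, a4⟩ := toNatV d1 g0 hl hv hr
  have hn1 := d1.face_ge _ (h.long hg)
  have hl1 := h.long hg l ⟨hv, hr⟩ hl
  set T := Multiset.card U
  have mem : ∀ j, (j ∈ List.range' T l.length ∨ j ∈ Multiset.range T) ↔ j < T + l.length := by
    intro j; simp; omega
  have hn : (((List.range' T l.length : List ℕ) : Multiset ℕ) + Multiset.range T).Nodup := by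
    rw [Multiset.nodup_add]
    refine ⟨Multiset.coe_nodup.2 (List.nodup_range' ..), Multiset.nodup_range _, ?_⟩
    rw [Multiset.disjoint_left]; intro a h1 h2; simp at h1 h2; omega
  obtain ⟨μ, hμ⟩ := d'.exists_mu hn
  have hmu : ∀ j < T + l.length, μ j < T + l.length ∧ μ (μ j) = j ∧ (F (μ j)).2 = (F j).2 ∧
      s(j, μ j) ∈ M' := by
    intro j hj
    obtain ⟨q, hq⟩ := d'.exists_M j ((mem j).2 hj)
    have hq' : s(q, j) ∈ M' := by rwa [Sym2.eq_swap]
    rw [hμ j q hq]
    exact ⟨(mem q).1 (d'.mem_of_M q j hq').1, hμ q j hq', (d'.mem_of_M q j hq').2, hq⟩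
  have su : ∀ q ∈ Multiset.range T, St c F nx q := fun q hq =>
    (a2 q ((mem q).1 (Or.inr hq))).2.1
  have ev : ((Multiset.range T).map (fun i => c.om (F i))).sum = (U.map c.om).sum := by
    rw [← a0, Multiset.map_map]; simp [T]
  have eb : (List.range' T l.length).map (fun i => bd c (F i)) = l.map (bd c) := by
    conv_rhs => rw [← a1, List.map_map]
    rfl
  by_cases ho : ∃ j < T + l.length, (F (μ j)).1 = c.π (F j).2 (F j).1
  · obtain ⟨j, hj, ho⟩ := ho
    have fin : ∀ e e', s(e, e') ∈ M' → e ∈ List.range' T l.length →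
        (F e').1 = c.π (F e).2 (F e).1 → (U.map c.om).sum + val c l = 0 := by
      intro e e' m1 m2 m3
      obtain ⟨k, hk⟩ : ∃ k, l.length = k + 1 := ⟨l.length - 1, by omega⟩
      have pth : Pth c.π (fun i => (F i).2) (fun i => (F i).1) (List.range' T l.length)
          (F T).1 (F T).1 := by
        have st : ∀ q ∈ List.range' T l.length, St c F nx q := fun q hq =>
          (a2 q ((mem q).1 (Or.inl hq))).2.1
        rw [hk, List.range'_succ] at a5 st ⊢
        exact face_pth a5 st
      have := h0.push d' hn hμ g' (by simp; omega) su pth e e' m1 m2 m3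
      rwa [ev, vF, a1] at this
    by_cases h1 : j < T
    · by_cases h2 : μ j < T
      · obtain ⟨t', p, q⟩ := h0.merge d' hn hμ g' (by simp; omega) su j (μ j) (hmu j hj).2.2.2
          (by simpa using h1) (by simpa using h2) ho
        rw [eb, ev] at q
        exact h0 _ _ _ _ ⟨l, hv, rfl, rfl⟩ q (by simp at p ⊢; omega)
      · exact fin (μ j) j (by rw [Sym2.eq_swap]; exact (hmu j hj).2.2.2)
          (by have := (hmu j hj).1; simp; omega) (by rw [ho, (hmu j hj).2.2.1, c.inv])
    · exact fin j (μ j) (hmu j hj).2.2.2 (by simp; omega) ho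
  exfalso
  push Not at ho
  have ch : List.IsChain (fun p q => q = nx p) (List.range' T l.length) := by
    obtain ⟨k, hk⟩ : ∃ k, l.length = k + 1 := ⟨l.length - 1, by omega⟩
    rw [hk, List.range'_succ] at a5 ⊢
    unfold ValN at a5
    rw [Cycle.chain_coe_cons, ← List.cons_append] at a5
    exact a5.left_of_append
  have ar := (arcs (sc := nx) (μ := μ) cyc_rot (fun _ h => h) _ _ _ _ _ le_rfl d' hμ
    (fun p hp => (a2 p ((mem p).1 hp)).2.2) (by simpa using hl)).1
  rw [jn_chain ch] at ar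
  have b1 := brk_chain (μ := μ) ch
  have b2 : ((Finset.range (T + l.length)).filter (bad nx μ)).card ≤ 15 * n := by
    have e : (Finset.range (T + l.length)).val =
        ((List.range' T l.length : List ℕ) : Multiset ℕ) + Multiset.range T := by
      rw [Multiset.Nodup.ext (Finset.range _).nodup hn]
      intro j; rw [Multiset.mem_add, Multiset.mem_coe, mem]; simp
    have : ((Finset.range (T + l.length)).filter (bad nx μ)).card =
        Multiset.countP (bad nx μ) (Finset.range (T + l.length)).val := by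
      rw [Multiset.countP_eq_card_filter]; rfl
    rw [this, e, Multiset.countP_add, Multiset.coe_countP]; omega
  have b3 : ((Finset.range (T + l.length)).filter
      (fun j => j + 1 < T + l.length ∧ nx (μ (j + 1)) ≠ μ (j + 1) + 1)).card ≤ n + 1 := by
    refine le_trans (Finset.card_le_card_of_injOn (fun j => μ (j + 1)) ?_ ?_) a4
    · intro j hj
      simp only [Finset.coe_filter, Finset.mem_range, Set.mem_setOf_eq] at hj ⊢
      exact ⟨(hmu _ hj.2.1).1, hj.2.2⟩
    · intro i hi j hj e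
      simp only [Finset.coe_filter, Finset.mem_range, Set.mem_setOf_eq] at hi hj e
      have := (hmu _ hi.2.1).2.1
      rw [e, (hmu _ hj.2.1).2.1] at this; omega
  have hb : ((Finset.range (T + l.length)).filter (Brk (T + l.length) nx μ)).card ≤
      17 * n + 2 := by
    refine le_trans (Finset.card_le_card (t := ((Finset.range (T + l.length)).filter
      (fun i => nx i ≠ i + 1) ∪ (Finset.range (T + l.length)).filter (bad nx μ)) ∪
      (Finset.range (T + l.length)).filter
        (fun j => j + 1 < T + l.length ∧ nx (μ (j + 1)) ≠ μ (j + 1) + 1)) ?_) ?_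
    · intro j hj
      simp only [Finset.mem_filter, Finset.mem_range, Finset.mem_union, Brk, bad] at hj ⊢
      by_cases k1 : nx j = j + 1
      · by_cases k2 : nx (μ (nx j)) = μ j
        · right
          refine ⟨hj.1, ?_⟩
          rw [k1] at k2
          by_contra k3
          refine hj.2 ⟨k1, fun k4 => ⟨?_, k2⟩⟩
          rw [← k2]; by_contra k5; exact k3 ⟨k4, k5⟩
        · exact Or.inl (Or.inr ⟨hj.1, k2⟩)
      · exact Or.inl (Or.inl ⟨hj.1, k1⟩)
    · refine le_trans (Finset.card_union_le _ _) ?_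
      have := Finset.card_union_le ((Finset.range (T + l.length)).filter (fun i => nx i ≠ i + 1))
        ((Finset.range (T + l.length)).filter (bad nx μ))
      omega
  have st : ∀ j < T + l.length, c.π (F j).2 (F j).1 = (F (nx j)).1 ∧
      c.π (F j).2 (F j).1 ≠ (F j).1 := fun j hj => by
    obtain ⟨a, b⟩ := (a2 j hj).2.1
    exact ⟨a, by rw [a]; exact b⟩
  have hnK : n ≤ K := by
    have : (g + 1) * n ≤ (g + 1) * K := by rw [mul_comm (g + 1) K]; omega
    exact Nat.le_of_mul_le_mul_left this (by omega)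
  have := hc (T + l.length) 0 (17 * n + 2) (fun i => (F i).2) (fun i => pv (F i).1) nx μ
    (by omega) (by nlinarith) (by omega)
    ⟨fun j hj => by have := h.step _ _ (st j hj).2; rwa [(st j hj).1] at this,
      fun j hj => (a2 j hj).1.le, fun j hj _ => (a2 j hj).2.2, a3,
      fun ⟨j, hj, e⟩ => absurd (a2 j hj).1 (by omega), fun j hj => (hmu j hj).2.1,
      fun j hj => (hmu j hj).1, fun j hj _ => ⟨(hmu j hj).2.2.1, fun e => ho j hj ?_⟩, hb⟩
  · omega
  · rw [(st j hj).1]
    refine h.ext _ _ ?_ e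
    rw [← (st j hj).1, c.pr_step _ _ (st j hj).2]
    exact congrArg Prod.fst (g' _ _ (hmu j hj).2.2.2)

theorem la_of {pv : W → V} (h : Cov c π pv) {g K q : ℕ} {c0 : V} (hg : Girth π g)
    (hc : NoCfg π c0 g (17 * K + 2) q) : ∀ N ≤ K * (g + 1), LA c N := by
  intro N
  induction N with
  | zero =>
    rintro - _ _ t v ⟨l, -, rfl, rfl⟩ f ht
    obtain rfl : l = [] := List.length_eq_zero_iff.1 (by simp at ht; simp [ht.2])
    simpa using f.of_nil
  | succ N ih => exact fun hN => (ih (by omega)).succ h hg hc hN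

end Vale.Agent.P201.T
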